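import Vale.Agent.P273.H599.Arc
import Vale.Agent.P273.H837.Proj
import Vale.Agent.P273.H395.Norm

/-!
Stability of curves glued from projective lines: a holomorphic vector field on a fibre that vanishes
at the marked points vanishes on every projective line of the fibre with three special points.
-/

noncomputable section

namespace Vale.Agent.P273.H599

open Set Filter Topology H183 H837 Sum

variable {L : Type} {m : ℕ} {C : Fam L m} {b : Fin m → ℂ} {D : (C.X → ℂ) → C.X → ℂ}

/-- **Two arcs that meet in one point meet in a node.** -/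
theorem isNode_of_meet (hch : ∀ p, ∃ U x y t, p ∈ U ∧ IsChart C.π C.hol U x y t)
    {μ μ' : ℂ → C.X} {N N' : Set ℂ} (hμ : Arc C b μ N) (hμ' : Arc C b μ' N') {u u' : ℂ}
    (hu : u ∈ N) (hu' : u' ∈ N') (he : μ u = μ' u')
    (hne : ∀ v ∈ N, ∀ v' ∈ N', μ v = μ' v' → v = u) : IsNode C (μ u) := by
  obtain ⟨U, x, y, t, hp, h⟩ := hch (μ u)
  -- a chart coordinate does not vanish unless the point is a node
  have main : ∀ {x y : C.X → ℂ}, IsChart C.π C.hol U x y t → x (μ u) = 0 := by
    intro x y h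
    by_contra hx
    have hp' : μ' u' ∈ U := he ▸ hp
    have hx' : x (μ' u') ≠ 0 := he ▸ hx
    have hX := hμ.hol u hu x (chart_hol_x h hp)
    have hX' := hμ'.hol u' hu' x (chart_hol_x h hp')
    have hd := hμ.key h hu hp (Or.inl hx)
    have hd' := hμ'.key h hu' hp' (Or.inl hx')
    have m1 : map (fun v => x (μ v)) (𝓝 u) = 𝓝 (x (μ u)) :=
      hX.hasStrictDerivAt.map_nhds_eq hd
    have m2 : map (fun v => x (μ' v)) (𝓝 u') = 𝓝 (x (μ u)) := by
      rw [he]; exact hX'.hasStrictDerivAt.map_nhds_eq hd'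
    have a1 : {v | v ∈ N ∧ μ v ∈ U ∧ x (μ v) ≠ 0} ∈ 𝓝 u := by
      filter_upwards [hμ.op.mem_nhds hu, (hμ.cont u hu).eventually_mem (h.1.mem_nhds hp),
        hX.continuousAt.eventually_ne hx] with v b1 b2 b3 using ⟨b1, b2, b3⟩
    have a2 : {v | v ∈ N' ∧ μ' v ∈ U} ∈ 𝓝 u' := by
      filter_upwards [hμ'.op.mem_nhds hu', (hμ'.cont u' hu').eventually_mem (h.1.mem_nhds hp')]
        with v b1 b2 using ⟨b1, b2⟩
    have i1 := image_mem_map (m := fun v => x (μ v)) a1
    have i2 := image_mem_map (m := fun v => x (μ' v)) a2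
    rw [m1] at i1
    rw [m2] at i2
    have i3 : ∀ᶠ ξ in 𝓝 (x (μ u)), ξ ∈ (fun v => x (μ v)) '' {v | v ∈ N ∧ μ v ∈ U ∧ x (μ v) ≠ 0} ∧
        ξ ∈ (fun v => x (μ' v)) '' {v | v ∈ N' ∧ μ' v ∈ U} := inter_mem i1 i2
    obtain ⟨ξ, ⟨⟨v, ⟨c1, c2, c3⟩, c4⟩, ⟨v', ⟨d1, d2⟩, d4⟩⟩, hξ⟩ :=
      ((i3.filter_mono nhdsWithin_le_nhds).and
        (self_mem_nhdsWithin : {x (μ u)}ᶜ ∈ 𝓝[≠] (x (μ u)))).exists
    have c4' : x (μ v) = ξ := c4
    have d4' : x (μ' v') = ξ := d4
    have hπ : C.π (μ v) = C.π (μ' v') := by rw [hμ.fib v c1, hμ'.fib v' d1]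
    have hxx : x (μ v) = x (μ' v') := c4'.trans d4'.symm
    have hyy : y (μ v) = y (μ' v') := by
      refine mul_left_cancel₀ c3 ?_
      rw [chart_eq h c2, hπ, ← chart_eq h d2, hxx]
    have := hne v c1 v' d1 (h.2.2.1 c2 d2 (by simp only [hπ, hxx, hyy]))
    rw [this] at c4'
    exact hξ c4'.symm
  exact ⟨U, x, y, t, hp, h, main h, main (chart_symm h)⟩

/-- The parameter at a point of the projective line. -/
def par : OnePoint ℂ → ℂ → OnePoint ℂ
  | none => inf
  | some _ => fun u => (u : OnePoint ℂ)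

/-- The value of the parameter. -/
def par0 : OnePoint ℂ → ℂ
  | none => 0
  | some a => a

theorem par_par0 (w : OnePoint ℂ) : par w (par0 w) = w := by
  match w with
  | none => exact inf_zero
  | some a => rfl

theorem continuous_par (w : OnePoint ℂ) : Continuous (par w) := by
  match w with
  | none => exact continuous_inf
  | some a => exact OnePoint.continuous_coe

theorem par_injective (w : OnePoint ℂ) : Function.Injective (par w) := by
  match w with
  | none => exact isOpenEmbedding_inf.injective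
  | some a => exact OnePoint.coe_injective

theorem inf_ne {u : ℂ} (hu : u ≠ 0) : inf u = ((u⁻¹ : ℂ) : OnePoint ℂ) := by
  rw [inf, if_neg hu]

theorem inf_eventually {u : ℂ} (hu : u ≠ 0) : ∀ᶠ v in 𝓝 u, inf v = ((v⁻¹ : ℂ) : OnePoint ℂ) := by
  filter_upwards [isOpen_ne.mem_nhds hu] with v hv using inf_ne hv

/-- A holomorphic map from the projective line to the fibre over `b`, injective off the finite set
`S`. -/
structure Line (C : Fam L m) (b : Fin m → ℂ) (ν : OnePoint ℂ → C.X) (S : Set (OnePoint ℂ)) :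
    Prop where
  fib : ∀ w, C.π (ν w) = b
  cont : Continuous ν
  hol : ∀ (a : ℂ) f, C.hol f (ν a) → AnalyticAt ℂ (fun u : ℂ => f (ν u)) a
  hol_infty : ∀ f, C.hol f (ν OnePoint.infty) → AnalyticAt ℂ (fun u : ℂ => f (ν (inf u))) 0
  fin : S.Finite
  inj : ∀ w w', ν w = ν w' → w = w' ∨ w ∈ S ∧ w' ∈ S

variable {ν : OnePoint ℂ → C.X} {S : Set (OnePoint ℂ)}

theorem Line.arc (hν : Line C b ν S) (w : OnePoint ℂ) :
    Arc C b (fun u => ν (par w u)) {u | par w u ∈ S → u = par0 w} where
  op := by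
    have : {u | par w u ∈ S → u = par0 w} = ((par w ⁻¹' S) \ {par0 w})ᶜ := by
      ext u; simp
    rw [this]
    exact ((hν.fin.preimage (par_injective w).injOn).subset sdiff_subset).isClosed.isOpen_compl
  fib _ _ := hν.fib _
  cont u _ := (hν.cont.comp (continuous_par w)).continuousAt
  hol u _ f hf := by
    match w with
    | some a => exact hν.hol u f hf
    | none =>
      change C.hol f (ν (inf u)) at hf
      change AnalyticAt ℂ (fun u => f (ν (inf u))) u
      by_cases hu : u = 0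
      · subst hu
        rw [inf_zero] at hf
        exact hν.hol_infty f hf
      · rw [inf_ne hu] at hf
        have h1 := hν.hol _ f hf
        have h2 : AnalyticAt ℂ (fun v : ℂ => v⁻¹) u := analyticAt_inv hu
        refine (AnalyticAt.comp (g := fun v : ℂ => f (ν v)) (f := fun v : ℂ => v⁻¹) h1 h2).congr ?_
        filter_upwards [inf_eventually hu] with v hv
        simp only [Function.comp]
        rw [hv]
  inj u hu u' hu' e := by
    rcases hν.inj _ _ e with h | ⟨h, h'⟩
    · exact par_injective w h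
    · rw [hu h, hu' h']

/-- **A vector field vanishes on a projective line with three special points.** -/
theorem Line.field_zero (hch : ∀ p, ∃ U x y t, p ∈ U ∧ IsChart C.π C.hol U x y t)
    (hD : C.IsField b D) (hν : Line C b ν S) {w : Fin 3 → OnePoint ℂ} (hw : Function.Injective w)
    (hsp : ∀ i, IsNode C (ν (w i)) ∨ ∃ k, ν (w i) = C.s k b) (z : OnePoint ℂ) (f : C.X → ℂ)
    (hf : C.hol f (ν z)) : D f (ν z) = 0 := by
  have hmem : ∀ w, par0 w ∈ {u | par w u ∈ S → u = par0 w} := fun w _ => rfl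
  -- the vector field in the parameter at each point
  choose δ hδa hδv hδn hδm using fun w => (hν.arc w).exists_val hch hD
  have hsp0 : ∀ i, δ (w i) (par0 (w i)) = 0 := by
    intro i
    rcases hsp i with h | ⟨k, h⟩
    · exact hδn _ _ (hmem _) (by rw [par_par0]; exact h)
    · exact hδm _ _ (hmem _) k (by rw [par_par0]; exact h)
  -- the vector field in the coordinate of the line
  set d : ℂ → ℂ := fun a => δ (a : OnePoint ℂ) a with hd
  have hdv : ∀ a : ℂ, Val C D (fun u => ν (u : OnePoint ℂ)) a (d a) := fun a =>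
    hδv (a : OnePoint ℂ) a (fun _ => rfl)
  have hdd : Differentiable ℂ d := by
    intro a
    have h1 : AnalyticAt ℂ (δ (a : OnePoint ℂ)) a := hδa (a : OnePoint ℂ) a (fun _ => rfl)
    refine (h1.congr ?_).differentiableAt
    filter_upwards [(hν.arc (a : OnePoint ℂ)).op.mem_nhds
      (show a ∈ {u | par (a : OnePoint ℂ) u ∈ S → u = par0 (a : OnePoint ℂ)} from fun _ => rfl)]
      with v hv
    exact Val.unique hch (hν.arc (a : OnePoint ℂ)) hv (hδv (a : OnePoint ℂ) v hv) (hdv v)
  -- the relation at infinity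
  have hinf : ∀ᶠ z : ℂ in cocompact ℂ, d z / z ^ 2 = -δ OnePoint.infty z⁻¹ := by
    have hfin : ((fun z : ℂ => (z : OnePoint ℂ)) ⁻¹' S).Finite :=
      hν.fin.preimage OnePoint.coe_injective.injOn
    filter_upwards [hfin.isCompact.compl_mem_cocompact,
      (isCompact_singleton (x := (0 : ℂ))).compl_mem_cocompact] with z hz hz0
    have hz0 : z ≠ 0 := hz0
    have hzi : z⁻¹ ≠ 0 := inv_ne_zero hz0
    have hN : z⁻¹ ∈ {u | par OnePoint.infty u ∈ S → u = par0 OnePoint.infty} := by
      intro h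
      change inf z⁻¹ ∈ S at h
      rw [inf_ne hzi, inv_inv] at h
      exact absurd h hz
    have hv := hδv OnePoint.infty z⁻¹ hN
    -- a function with nonzero derivative
    obtain ⟨U, x, y, t, hp, h, hx, -⟩ := (hν.arc (z : OnePoint ℂ)).exists_coord hch
      (show z ∈ {u | par (z : OnePoint ℂ) u ∈ S → u = par0 (z : OnePoint ℂ)} from fun _ => rfl)
    have hp' : ν (z : OnePoint ℂ) ∈ U := hp
    have hx' : deriv (fun u : ℂ => x (ν (u : OnePoint ℂ))) z ≠ 0 := hx
    have hxh : C.hol x (ν (z : OnePoint ℂ)) := chart_hol_x h hp'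
    have e1 := hdv z x hxh
    have e3 : (par OnePoint.infty z⁻¹) = (z : OnePoint ℂ) := by
      change inf z⁻¹ = _
      rw [inf_ne hzi, inv_inv]
    have e2 := hv x (by simp only [e3]; exact hxh)
    simp only [e3] at e2
    have e4 : deriv (fun u => x (ν (par OnePoint.infty u))) z⁻¹ =
        deriv (fun u : ℂ => x (ν (u : OnePoint ℂ))) z * (-z ^ 2) := by
      have h5 : (fun u => x (ν (par OnePoint.infty u))) =ᶠ[𝓝 z⁻¹]
          (fun u : ℂ => x (ν (u : OnePoint ℂ))) ∘ fun v : ℂ => v⁻¹ := by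
        filter_upwards [inf_eventually hzi] with v hv
        change x (ν (inf v)) = _
        rw [hv]; rfl
      rw [h5.deriv_eq]
      have h6 : HasDerivAt (fun v : ℂ => v⁻¹) (-(z⁻¹ ^ 2)⁻¹) z⁻¹ := hasDerivAt_inv hzi
      have h7 : HasDerivAt (fun u : ℂ => x (ν (u : OnePoint ℂ)))
          (deriv (fun u : ℂ => x (ν (u : OnePoint ℂ))) z) (z⁻¹)⁻¹ := by
        rw [inv_inv]
        exact (hν.hol z x hxh).differentiableAt.hasDerivAt
      rw [(h7.comp _ h6).deriv]
      simp
    rw [e1, e4] at e2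
    have e5 : d z = -z ^ 2 * δ OnePoint.infty z⁻¹ := by
      refine mul_left_cancel₀ hx' ?_
      rw [e2]; ring
    rw [e5]
    field_simp
  have hinv : Tendsto (fun z : ℂ => z⁻¹) (cocompact ℂ) (𝓝 0) := by
    refine (tendsto_inv₀_cobounded (α := ℂ)).mono_left ?_
    rw [Metric.cobounded_eq_cocompact]
  have hδ0c : ContinuousAt (δ OnePoint.infty) 0 :=
    (hδa OnePoint.infty 0 (fun _ => rfl)).continuousAt
  have hlim : Tendsto (fun z => d z / z ^ 2) (cocompact ℂ) (𝓝 (-δ OnePoint.infty 0)) := by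
    have h1 : Tendsto (fun z => -δ OnePoint.infty z⁻¹) (cocompact ℂ) (𝓝 (-δ OnePoint.infty 0)) :=
      (hδ0c.tendsto.comp hinv).neg
    exact (tendsto_congr' hinf).2 h1
  have hzero : ∀ a, d a = 0 := by
    intro a
    refine p1_zero (S := ∅) finite_empty (fun z _ => (hdd z).differentiableWithinAt)
      (by simp) (C := ‖-δ OnePoint.infty 0‖ + 1) ?_ w hw ?_ a (by simp)
    · have := hlim.norm.eventually_lt_const (lt_add_one ‖-δ OnePoint.infty 0‖)
      filter_upwards [this] with z hz using hz.le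
    · intro i
      have h0 := hsp0 i
      generalize w i = wi at h0
      match wi with
      | none =>
        have h0' : δ OnePoint.infty 0 = 0 := h0
        change Tendsto (fun z => d z / z ^ 2) (cocompact ℂ) (𝓝 0)
        rw [h0', neg_zero] at hlim
        exact hlim
      | some a =>
        change Tendsto d (𝓝[≠] a) (𝓝 0)
        have h1 : d a = 0 := h0
        rw [← h1]
        exact (hdd a).continuousAt.tendsto.mono_left nhdsWithin_le_nhds
  -- the value at infinity
  have hinf0 : δ OnePoint.infty 0 = 0 := by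
    have h1 : Tendsto (fun z => d z / z ^ 2) (cocompact ℂ) (𝓝 0) := by
      simp only [hzero, zero_div]
      exact tendsto_const_nhds
    have := tendsto_nhds_unique hlim h1
    exact neg_eq_zero.1 this
  match z with
  | some a =>
    have := hdv a f hf
    rw [hzero, mul_zero] at this
    exact this
  | none =>
    have e0 : par OnePoint.infty 0 = OnePoint.infty := inf_zero
    have h1 := hδv OnePoint.infty 0 (fun _ => rfl) f (by simp only [e0]; exact hf)
    rw [hinf0, mul_zero] at h1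
    simp only [e0] at h1
    exact h1

variable {V E : Type} {m' : ℕ}

open H395 in
/-- The projective lines of a normalisation. -/
theorem line_of_norm {U : Set (Fin m' → ℂ)} {φ : (Fin m' → ℂ) → Fin m → ℂ}
    {h : (E × Bool) ⊕ L → V} {z : (E × Bool) ⊕ L → (Fin m' → ℂ) → OnePoint ℂ}
    {g : V → OnePoint ℂ → (Fin m' → ℂ) → C.X} (hN : Norm C U φ h z g) {b' : Fin m' → ℂ}
    (hb : b' ∈ U) (v : V)
    (hfin : {w | ∃ (e : E) (s : Bool), h (inl (e, s)) = v ∧ w = z (inl (e, s)) b'}.Finite) :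
    Line C (φ b') (fun w => g v w b')
      {w | ∃ (e : E) (s : Bool), h (inl (e, s)) = v ∧ w = z (inl (e, s)) b'} where
  fib w := hN.proj b' hb v w
  cont := by
    have := hN.cont v
    exact this.comp_continuous (f := fun w : OnePoint ℂ => (w, b'))
      (by fun_prop) (fun w => ⟨mem_univ _, hb⟩)
  hol a f hf := by
    have h1 := (hN.hol b' hb v _ f hf).1 a rfl
    exact AnalyticAt.comp (g := fun u : ℂ × (Fin m' → ℂ) => f (g v u.1 u.2))
      (f := fun u : ℂ => (u, b')) h1 (analyticAt_id.prod analyticAt_const)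
  hol_infty f hf := by
    have h1 := (hN.hol b' hb v _ f hf).2 rfl
    exact AnalyticAt.comp (g := fun u : ℂ × (Fin m' → ℂ) => f (g v (inf u.1) u.2))
      (f := fun u : ℂ => (u, b')) h1 (analyticAt_id.prod analyticAt_const)
  fin := hfin
  inj w w' e := by
    rcases (hN.ident b' hb v w v w').1 e with ⟨-, h⟩ | ⟨e, s, ⟨h1, h2⟩, h3, h4⟩
    · exact Or.inl h
    · exact Or.inr ⟨⟨e, s, h1.symm, h2⟩, ⟨e, !s, h3.symm, h4⟩⟩

open H395 in
/-- The ends of an edge are nodes. -/
theorem node_of_norm (hch : ∀ p, ∃ U x y t, p ∈ U ∧ IsChart C.π C.hol U x y t)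
    {U : Set (Fin m' → ℂ)} {φ : (Fin m' → ℂ) → Fin m → ℂ}
    {h : (E × Bool) ⊕ L → V} {z : (E × Bool) ⊕ L → (Fin m' → ℂ) → OnePoint ℂ}
    {g : V → OnePoint ℂ → (Fin m' → ℂ) → C.X} (hN : Norm C U φ h z g) {b' : Fin m' → ℂ}
    (hb : b' ∈ U)
    (hfin : ∀ v, {w | ∃ (e : E) (s : Bool), h (inl (e, s)) = v ∧ w = z (inl (e, s)) b'}.Finite)
    (hdist : ∀ y y', h y = h y' → z y b' = z y' b' → y = y') (e : E) (s : Bool) :
    IsNode C (g (h (inl (e, s))) (z (inl (e, s)) b') b') := by
  set v := h (inl (e, s)) with hv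
  set v' := h (inl (e, !s)) with hv'
  set w := z (inl (e, s)) b' with hw
  set w' := z (inl (e, !s)) b' with hw'
  have hA := (line_of_norm hN hb v (hfin v)).arc w
  have hA' := (line_of_norm hN hb v' (hfin v')).arc w'
  have hvw : ¬ (v = v' ∧ w = w') := by
    rintro ⟨h1, h2⟩
    have := hdist _ _ h1 h2
    simp at this
  -- disjoint neighbourhoods if the two ends are on the same line
  obtain ⟨A, A', hAo, hAo', hwA, hwA', hdisj⟩ : ∃ A A' : Set (OnePoint ℂ), IsOpen A ∧ IsOpen A' ∧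
      w ∈ A ∧ w' ∈ A' ∧ (v = v' → Disjoint A A') := by
    by_cases hvv : v = v'
    · have hww : w ≠ w' := fun h => hvw ⟨hvv, h⟩
      obtain ⟨A, A', h1, h2, h3, h4, h5⟩ := t2_separation hww
      exact ⟨A, A', h1, h2, h3, h4, fun _ => h5⟩
    · exact ⟨univ, univ, isOpen_univ, isOpen_univ, mem_univ _, mem_univ _, fun h => absurd h hvv⟩
  have mono : ∀ {μ : ℂ → C.X} {N N' : Set ℂ}, Arc C (φ b') μ N → IsOpen N' → N' ⊆ N →
      Arc C (φ b') μ N' := fun hμ ho hs => ⟨ho, fun u hu => hμ.fib u (hs hu),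
    fun u hu => hμ.cont u (hs hu), fun u hu => hμ.hol u (hs hu), hμ.inj.mono hs⟩
  have hB := mono hA (hA.op.inter (hAo.preimage (continuous_par w))) inter_subset_left
  have hB' := mono hA' (hA'.op.inter (hAo'.preimage (continuous_par w'))) inter_subset_left
  have key := isNode_of_meet hch hB hB' (u := par0 w) (u' := par0 w')
    ⟨fun _ => rfl, by rw [mem_preimage, par_par0]; exact hwA⟩
    ⟨fun _ => rfl, by rw [mem_preimage, par_par0]; exact hwA'⟩ ?_ ?_
  · simp only [par_par0] at key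
    exact key
  · simp only [par_par0]
    exact (hN.ident b' hb v w v' w').2 (Or.inr ⟨e, s, ⟨hv, hw⟩, hv', hw'⟩)
  · rintro u ⟨hu, huA⟩ u' ⟨hu', huA'⟩ he
    rcases (hN.ident b' hb _ _ _ _).1 he with ⟨h1, h2⟩ | ⟨e', s', ⟨h1, h2⟩, -⟩
    · exfalso
      refine Set.disjoint_left.1 (hdisj h1) huA ?_
      rw [h2]; exact huA'
    · exact hu ⟨e', s', h1.symm, h2⟩

open H395 in
/-- **Stability of a fibre with a normalisation by projective lines, each with three special
points.** -/
theorem norm_field_zero (hch : ∀ p, ∃ U x y t, p ∈ U ∧ IsChart C.π C.hol U x y t)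
    {U : Set (Fin m' → ℂ)} {φ : (Fin m' → ℂ) → Fin m → ℂ}
    {h : (E × Bool) ⊕ L → V} {z : (E × Bool) ⊕ L → (Fin m' → ℂ) → OnePoint ℂ}
    {g : V → OnePoint ℂ → (Fin m' → ℂ) → C.X} (hN : Norm C U φ h z g) {b' : Fin m' → ℂ}
    (hb : b' ∈ U)
    (hfin : ∀ v, {w | ∃ (e : E) (s : Bool), h (inl (e, s)) = v ∧ w = z (inl (e, s)) b'}.Finite)
    (hdist : ∀ y y', h y = h y' → z y b' = z y' b' → y = y')
    (h3 : ∀ v, ∃ y : Fin 3 → (E × Bool) ⊕ L, Function.Injective y ∧ ∀ i, h (y i) = v)
    (hD : C.IsField (φ b') D) (p : C.X) (hp : p ∈ C.fib (φ b')) (f : C.X → ℂ) (hf : C.hol f p) :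
    D f p = 0 := by
  obtain ⟨v, w, rfl⟩ := hN.onto b' hb p hp
  obtain ⟨y, hy, hyv⟩ := h3 v
  refine (line_of_norm hN hb v (hfin v)).field_zero hch hD (w := fun i => z (y i) b') ?_ ?_ w f hf
  · intro i j hij
    exact hy (hdist _ _ ((hyv i).trans (hyv j).symm) hij)
  · intro i
    rcases hyi : y i with ⟨e, s⟩ | x
    · left
      have := node_of_norm hch hN hb hfin hdist e s
      rwa [show h (inl (e, s)) = v by rw [← hyi]; exact hyv i] at this
    · right
      refine ⟨x, ?_⟩
      rw [hN.mark b' hb x, show h (inr x) = v by rw [← hyi]; exact hyv i]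

/-- **A glued family has no vector fields.** -/
theorem glued_field_zero (hch : ∀ p, ∃ U x y t, p ∈ U ∧ IsChart C.π C.hol U x y t)
    {h : (E × Bool) ⊕ L → V} {c : Coord h m} (hg : c.IsGlued C) (hb : b ∈ C.B)
    (hD : C.IsField b D) (p : C.X) (hp : p ∈ C.fib b) (f : C.X → ℂ) (hf : C.hol f p) :
    D f p = 0 := by
  obtain ⟨g, hN⟩ := H395.Norm.of_isGlued hg
  have hb' : b ∈ c.base := hg.1 ▸ hb
  refine norm_field_zero hch hN hb' (fun v => ?_) hb' (fun v => ?_) hD p hp f hf
  · refine (finite_range (pt b)).subset ?_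
    rintro w ⟨e, s, -, rfl⟩
    exact ⟨_, rfl⟩
  · choose y hy using fun i => (c.const v i).exists
    refine ⟨y, fun i j hij => ?_, fun i => (hy i).1⟩
    have := (hy i).2.symm.trans ((congrArg c.c hij).trans (hy j).2)
    exact inl_injective this

/-- **Stability of glued families.** -/
theorem isStable_of_isGlued {h : (E × Bool) ⊕ L → V} {c : Coord h m} (hg : c.IsGlued C)
    (hB : IsOpen C.B) (hT : T2Space C.X) (hπ : ∀ p, C.π p ∈ C.B)
    (hproper : ∀ K ⊆ C.B, IsCompact K → IsCompact (C.π ⁻¹' K))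
    (hch : ∀ p, ∃ U x y t, p ∈ U ∧ IsChart C.π C.hol U x y t)
    (hrest : ∀ b ∈ C.B, IsConnected (C.fib b) ∧
      (∀ i, C.π (C.s i b) = b ∧ ContinuousAt (C.s i) b ∧
        (∀ f, C.hol f (C.s i b) → AnalyticAt ℂ (fun b' => f (C.s i b')) b) ∧
        (∀ j, C.s i b = C.s j b → i = j) ∧
        ∀ U x y t, IsChart C.π C.hol U x y t → C.s i b ∈ U →
          x (C.s i b) ≠ 0 ∨ y (C.s i b) ≠ 0)) : C.IsStable :=
  ⟨hB, hT, hπ, hproper, hch, fun b hb => ⟨(hrest b hb).1, (hrest b hb).2,
    fun _ hD p hp f hf => glued_field_zero hch hg hb hD p hp f hf⟩⟩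

end Vale.Agent.P273.H599

end
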