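import Vale.Agent.P273.H948.State

/-!
Shrinking the base of a state so that finitely many open conditions at a point hold on the whole
base.
-/

noncomputable section

open Set Filter Topology

namespace Vale.Agent.P273.H599

open Vale.Agent.P273.H948

variable {m : ℕ} {X₀ : Surf m} {L : Type} {P : L → (Fin m → ℂ) → X₀.X} {A : Set L}

/-- **Shrinking.** -/
theorem exists_shrink (σ : State X₀ P A) {c : Fin m → ℂ} (hc : c ∈ σ.F.B)
    {Pr : (Fin m → ℂ) → Prop} (h : ∀ᶠ b in 𝓝 c, Pr b) :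
    ∃ (B' : Set (Fin m → ℂ)) (hB' : IsOpen B') (hB : B' ⊆ σ.F.B)
      (_ : (σ.F.shrink B' hB' hB).S.X), c ∈ B' ∧ ∀ b ∈ B', Pr b := by
  obtain ⟨V, hV, hVo, hcV⟩ := eventually_nhds_iff.1 h
  refine ⟨V ∩ σ.F.B, hVo.inter σ.F.openB, inter_subset_right, ?_, ⟨hcV, hc⟩, fun b hb => hV b hb.1⟩
  exact ((σ.F.shrink (V ∩ σ.F.B) (hVo.inter σ.F.openB) inter_subset_right).conn c
    ⟨hcV, hc⟩).nonempty.some

/-- The inclusion of the total space over the smaller base. -/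
abbrev shInc (F : PFam m) {B' : Set (Fin m → ℂ)} (hB' : IsOpen B') (hB : B' ⊆ F.B)
    (x : (F.shrink B' hB' hB).S.X) : F.S.X := PFam.inc F (hB' := hB') (hB := hB) x

theorem shInc_emb (F : PFam m) {B' : Set (Fin m → ℂ)} (hB' : IsOpen B') (hB : B' ⊆ F.B) :
    IsOpenEmbedding (shInc F hB' hB) := PFam.inc_emb (F := F) (hB' := hB') (hB := hB)

section shrink

variable (σ : State X₀ P A) {B' : Set (Fin m → ℂ)} (hB' : IsOpen B') (hB : B' ⊆ σ.F.B)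
  (x₀ : (σ.F.shrink B' hB' hB).S.X)

theorem shrink_B : (σ.shrink B' hB' hB x₀).F.B = B' := rfl

theorem shrink_s_eq (j : L) {b : Fin m → ℂ} (hb : b ∈ B') :
    shInc σ.F hB' hB ((σ.shrink B' hB' hB x₀).s j b) = σ.s j b :=
  PFam.inc_rsec (σ.sec j) hb

theorem shrink_eq_iff (i j : L) {b : Fin m → ℂ} (hb : b ∈ B') :
    (σ.shrink B' hB' hB x₀).s i b = (σ.shrink B' hB' hB x₀).s j b ↔ σ.s i b = σ.s j b := by
  constructor
  · intro h
    rw [← shrink_s_eq σ hB' hB x₀ i hb, ← shrink_s_eq σ hB' hB x₀ j hb, h]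
  · intro h
    refine (shInc_emb σ.F hB' hB).injective ?_
    rw [shrink_s_eq σ hB' hB x₀ i hb, shrink_s_eq σ hB' hB x₀ j hb, h]

/-- Models over a smaller base. -/
theorem shrink_model {U : Set σ.F.S.X} {u v : σ.F.S.X → ℂ} {t : (Fin m → ℂ) → ℂ}
    (h : IsModel σ.F.S.π σ.F.S.hol U u v t) :
    IsModel (σ.shrink B' hB' hB x₀).F.S.π (σ.shrink B' hB' hB x₀).F.S.hol (shInc σ.F hB' hB ⁻¹' U)
      (u ∘ shInc σ.F hB' hB) (v ∘ shInc σ.F hB' hB) t :=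
  h.preimage (shInc_emb σ.F hB' hB) (fun _ => rfl) (fun _ _ => Iff.rfl)

theorem smoothAt_of_inc {x : (σ.F.shrink B' hB' hB).S.X}
    (h : (σ.F.shrink B' hB' hB).S.SmoothAt x) : σ.F.S.SmoothAt (shInc σ.F hB' hB x) :=
  smoothAt_image (shInc_emb σ.F hB' hB) (fun _ => rfl) (fun x g => (PFam.inc_hol_comp x g).symm) h

theorem shrink_smooth_iff (j : L) {b : Fin m → ℂ} (hb : b ∈ B') :
    (σ.shrink B' hB' hB x₀).F.S.SmoothAt ((σ.shrink B' hB' hB x₀).s j b) ↔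
      σ.F.S.SmoothAt (σ.s j b) := by
  constructor
  · intro h
    have := smoothAt_of_inc σ hB' hB h
    rwa [shrink_s_eq σ hB' hB x₀ j hb] at this
  · intro h
    rw [← shrink_s_eq σ hB' hB x₀ j hb] at h
    exact PFam.smoothAt_inc h

end shrink

/-! ### Open conditions -/

theorem eventually_mem (σ : State X₀ P A) {c : Fin m → ℂ} (hc : c ∈ σ.F.B) (j : L)
    {U : Set σ.F.S.X} (hU : IsOpen U) (h : σ.s j c ∈ U) : ∀ᶠ b in 𝓝 c, σ.s j b ∈ U :=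
  (σ.sec j c hc).2.1.eventually_mem (hU.mem_nhds h)

theorem eventually_smooth (σ : State X₀ P A) {c : Fin m → ℂ} (hc : c ∈ σ.F.B) (j : L)
    (h : σ.F.S.SmoothAt (σ.s j c)) : ∀ᶠ b in 𝓝 c, σ.F.S.SmoothAt (σ.s j b) :=
  eventually_mem σ hc j σ.F.S.smoothAt_open h

theorem eventually_ne (σ : State X₀ P A) {c : Fin m → ℂ} (hc : c ∈ σ.F.B) (i j : L)
    (h : σ.s i c ≠ σ.s j c) : ∀ᶠ b in 𝓝 c, σ.s i b ≠ σ.s j b := by
  have h1 : ContinuousAt (fun b => (σ.s i b, σ.s j b)) c :=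
    (σ.sec i c hc).2.1.prodMk (σ.sec j c hc).2.1
  have h2 : IsOpen {p : σ.F.S.X × σ.F.S.X | p.1 ≠ p.2} := isOpen_ne_fun continuous_fst continuous_snd
  exact h1.eventually_mem (h2.mem_nhds h)

/-- Adding a label at a smooth point away from the marks, after shrinking. -/
theorem exists_shrink_add [Finite L] (σ : State X₀ P A) {c : Fin m → ℂ} (hc : c ∈ σ.F.B) (j : L)
    (hs : σ.F.S.SmoothAt (σ.s j c)) (hd : ∀ i ∈ A, σ.s i c ≠ σ.s j c) :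
    ∃ (B' : Set (Fin m → ℂ)) (hB' : IsOpen B') (hB : B' ⊆ σ.F.B)
      (x₀ : (σ.F.shrink B' hB' hB).S.X), c ∈ B' ∧
      (∀ b ∈ (σ.shrink B' hB' hB x₀).F.B,
        (σ.shrink B' hB' hB x₀).F.S.SmoothAt ((σ.shrink B' hB' hB x₀).s j b)) ∧
      ∀ b ∈ (σ.shrink B' hB' hB x₀).F.B, ∀ i ∈ A,
        (σ.shrink B' hB' hB x₀).s i b ≠ (σ.shrink B' hB' hB x₀).s j b := by
  have h1 : ∀ᶠ b in 𝓝 c, σ.F.S.SmoothAt (σ.s j b) ∧ ∀ i ∈ A, σ.s i b ≠ σ.s j b := by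
    refine (eventually_smooth σ hc j hs).and ?_
    rw [eventually_all_finite (toFinite A)]
    exact fun i hi => eventually_ne σ hc i j (hd i hi)
  obtain ⟨B', hB', hB, x₀, hcB, hP⟩ := exists_shrink σ hc h1
  refine ⟨B', hB', hB, x₀, hcB, fun b hb => ?_, fun b hb i hi => ?_⟩
  · exact (shrink_smooth_iff σ hB' hB x₀ j hb).2 (hP b hb).1
  · exact fun e => (hP b hb).2 i hi ((shrink_eq_iff σ hB' hB x₀ i j hb).1 e)

/-- The same as a statement about a motive. -/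
theorem exists_add [Finite L] {Q : ∀ A : Set L, State X₀ P A → Prop}
    (hQs : ∀ A (σ : State X₀ P A) B' hB' hB x₀, Q A σ → Q A (σ.shrink B' hB' hB x₀))
    (hQa : ∀ A (σ : State X₀ P A) j hs hd, j ∉ A → Q A σ → Q (insert j A) (σ.add j hs hd))
    (σ : State X₀ P A) (hσ : Q A σ) {c : Fin m → ℂ} (hc : c ∈ σ.F.B) (j : L) (hj : j ∉ A)
    (hs : σ.F.S.SmoothAt (σ.s j c)) (hd : ∀ i ∈ A, σ.s i c ≠ σ.s j c) :
    ∃ σ' : State X₀ P (insert j A), Q (insert j A) σ' ∧ c ∈ σ'.F.B ∧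
      (∀ k, σ'.F.S.SmoothAt (σ'.s k c) ↔ σ.F.S.SmoothAt (σ.s k c)) ∧
      ∀ k l, σ'.s k c = σ'.s l c ↔ σ.s k c = σ.s l c := by
  obtain ⟨B', hB', hB, x₀, hcB, h1, h2⟩ := exists_shrink_add σ hc j hs hd
  exact ⟨(σ.shrink B' hB' hB x₀).add j h1 h2, hQa _ _ j h1 h2 hj (hQs _ _ _ _ _ _ hσ), hcB,
    fun k => shrink_smooth_iff σ hB' hB x₀ k hcB, fun k l => shrink_eq_iff σ hB' hB x₀ k l hcB⟩

end Vale.Agent.P273.H599

end
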