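import Vale.Agent.P273.H591.QS
import Vale.Agent.P273.H395.NormM3
import Vale.Agent.P273.H303.Pos
import Vale.Agent.P273.H599.Shrink
import Vale.Agent.P273.H949.Stable

/-!
The end of the insertion process over an open stratum: if the positions of the labels are distinct
and are not positions of nodes at one point, then after shrinking the base all labels are distinct
smooth points, and the state is a family of stable curves with the same normalisation data.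
-/

noncomputable section

open Set Filter Topology

namespace Vale.Agent.P273.H599

open Vale.Agent.P273.H948 Vale.Agent.P273.H395 Vale.Agent.P273.H591 Vale.Agent.P273.H949
open Vale.Agent.P273.H183 Vale.Agent.P273.H837

variable {V E L K : Type} {m m' : ℕ}

/-- Normalisation data over a smaller base. -/
theorem normS_shrink (F : PFam m) {U : Set (Fin m' → ℂ)} {φ : (Fin m' → ℂ) → Fin m → ℂ}
    {h : E × Bool → V} {z : E × Bool → (Fin m' → ℂ) → OnePoint ℂ}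
    {g : V → OnePoint ℂ → (Fin m' → ℂ) → F.S.X} {B' : Set (Fin m → ℂ)} (hB' : IsOpen B')
    (hB : B' ⊆ F.B) (G : NormS F.S U φ h z g) {U' : Set (Fin m' → ℂ)} (hUo : IsOpen U')
    (hU' : U' ⊆ U) (hm : ∀ b ∈ U', φ b ∈ B') (x₀ : (F.shrink B' hB' hB).S.X) :
    ∃ g' : V → OnePoint ℂ → (Fin m' → ℂ) → (F.shrink B' hB' hB).S.X,
      (∀ b ∈ U', ∀ v w, shInc F hB' hB (g' v w b) = g v w b) ∧
      NormS (F.shrink B' hB' hB).S U' φ h z g' := by
  classical
  have hO : ∀ b ∈ U', ∀ v w, g v w b ∈ F.S.π ⁻¹' B' := by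
    intro b hb v w
    change F.S.π _ ∈ B'
    rw [G.proj b (hU' hb)]
    exact hm b hb
  let g' : V → OnePoint ℂ → (Fin m' → ℂ) → (F.shrink B' hB' hB).S.X := fun v w b =>
    if hh : g v w b ∈ F.S.π ⁻¹' B' then Surf.toSub (hB'.preimage F.S.cont_π) (g v w b) hh else x₀
  have hg' : ∀ b ∈ U', ∀ v w, shInc F hB' hB (g' v w b) = g v w b := by
    intro b hb v w
    have e : g' v w b = Surf.toSub (hB'.preimage F.S.cont_π) (g v w b) (hO b hb v w) :=
      dif_pos (hO b hb v w)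
    rw [e]
    rfl
  have hinj := (shInc_emb F hB' hB).injective
  have hcont : ∀ v, ContinuousOn (fun u : OnePoint ℂ × (Fin m' → ℂ) => g' v u.1 u.2)
      (univ ×ˢ U') := by
    intro v
    rw [(shInc_emb F hB' hB).isInducing.continuousOn_iff]
    refine ((G.cont v).mono (prod_mono Subset.rfl hU')).congr ?_
    intro u hu
    exact hg' u.2 hu.2 v u.1
  refine ⟨g', hg', ⟨fun b hb => G.sep b (hU' hb), fun y => (G.zc y).mono hU', hcont, ?_, ?_, ?_,
    ?_⟩⟩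
  · intro b hb v w
    change F.S.π (shInc F hB' hB (g' v w b)) = φ b
    rw [hg' b hb]
    exact G.proj b (hU' hb) v w
  · intro b hb p hp
    obtain ⟨v, w, e⟩ := G.onto b (hU' hb) (shInc F hB' hB p) hp
    exact ⟨v, w, hinj (by rw [hg' b hb, e])⟩
  · intro b hb v w v' w'
    rw [← G.ident b (hU' hb) v w v' w', ← hg' b hb v w, ← hg' b hb v' w']
    exact hinj.eq_iff.symm
  · intro b hb v w f hf
    obtain ⟨f', hf', e⟩ := (PFam.inc_hol (g' v w b) f).1 hf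
    have hf'' : F.S.hol (g v w b) f' := by
      rw [← hg' b hb v w]
      exact hf'
    have hc : ContinuousAt (fun u : OnePoint ℂ × (Fin m' → ℂ) => g' v u.1 u.2) (w, b) :=
      contAt hUo (hcont v) hb
    refine hol1_congr (G.hol b (hU' hb) v w f' hf'') ?_
    have hUe : ∀ᶠ u : OnePoint ℂ × (Fin m' → ℂ) in 𝓝 (w, b), u.2 ∈ U' :=
      continuousAt_snd.eventually (hUo.mem_nhds hb)
    filter_upwards [hUe, hc.eventually e] with u hu1 hu2
    rw [hu2]
    change _ = f' (shInc F hB' hB (g' v u.1 u.2))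
    rw [hg' u.2 hu1]

/-- **The end of the insertion process.** -/
theorem exists_end [Finite V] [Finite L] {X₀ : Surf m} {P : L → (Fin m → ℂ) → X₀.X} {A : Set L}
    (σ : State X₀ P A) {U : Set (Fin m' → ℂ)} {φ : (Fin m' → ℂ) → Fin m → ℂ}
    {h : E × Bool → V} {z : E × Bool → (Fin m' → ℂ) → OnePoint ℂ}
    {g : V → OnePoint ℂ → (Fin m' → ℂ) → σ.F.S.X} {vL : L → V}
    {zL : L → (Fin m' → ℂ) → OnePoint ℂ} (G : NormS σ.F.S U φ h z g) (hU : IsOpen U)
    (hφ : ∀ b ∈ U, AnalyticAt ℂ φ b) (hm : ∀ b ∈ U, φ b ∈ σ.F.B)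
    (lab : ∀ j, ∀ b ∈ U, σ.s j (φ b) = g (vL j) (zL j b) b) {c : Fin m' → ℂ} (hc : c ∈ U)
    (hd : ∀ i j, vL i = vL j → zL i c = zL j c → i = j)
    (hn : ∀ j y, vL j = h y → zL j c ≠ z y c)
    (hst : ∀ b ∈ σ.F.B, NoFld σ.F.S b {p | ∃ j, σ.s j b = p}) :
    ∃ B₀ ∈ 𝓝 (φ c), ∀ (B' : Set (Fin m → ℂ)) (_ : IsOpen B') (_ : B' ⊆ σ.F.B), B' ⊆ B₀ →
      φ c ∈ B' → ∃ (τ : State X₀ P univ) (g' : V → OnePoint ℂ → (Fin m' → ℂ) → τ.F.S.X),
        τ.F.B = B' ∧ (toFam τ.F τ.s).IsStable ∧ IsOpen (U ∩ φ ⁻¹' B') ∧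
        NormL τ.F.S τ.F.B τ.s (U ∩ φ ⁻¹' B') φ (Sum.elim h vL) (Sum.elim z zL) g' := by
  have : T2Space σ.F.S.X := σ.F.S.t2
  have NL : NormL σ.F.S σ.F.B σ.s U φ (Sum.elim h vL) (Sum.elim z zL) g :=
    NormS.toL (h := Sum.elim h vL) (z := Sum.elim z zL) G hφ hm fun b hb j => lab j b hb
  -- the labels are smooth and distinct over `φ c`
  have hsm : ∀ j, σ.F.S.SmoothAt (σ.s j (φ c)) := by
    intro j
    obtain ⟨N, u, v, t, hpN, hN⟩ := σ.F.S.model (σ.s j (φ c))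
    have hch : IsChart (fam σ.F.S σ.F.B σ.s).π (fam σ.F.S σ.F.B σ.s).hol N u v t := hN.isChart
    have hT2 : T2Space (fam σ.F.S σ.F.B σ.s).X := σ.F.S.t2
    refine ⟨N, u, v, t, hpN, hN, H303.ne_zero_of_not_node NL.norm hch hc hpN
      ((σ.sec j _ (hm c hc)).1) fun y e => ?_⟩
    rw [lab j c hc] at e
    rcases (G.ident c hc _ _ _ _).1 e with ⟨h1, h2⟩ | ⟨e', s', ⟨h1, h2⟩, -⟩
    · exact hn j y h1 h2
    · exact hn j _ h1 h2
  have hne : ∀ i j, i ≠ j → σ.s i (φ c) ≠ σ.s j (φ c) := by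
    intro i j hij e
    rw [lab i c hc, lab j c hc] at e
    rcases (G.ident c hc _ _ _ _).1 e with ⟨h1, h2⟩ | ⟨e', s', ⟨h1, h2⟩, -⟩
    · exact hij (hd i j h1 h2)
    · exact hn i _ h1 h2
  have hev : ∀ᶠ b in 𝓝 (φ c), (∀ j, σ.F.S.SmoothAt (σ.s j b)) ∧
      ∀ i j, i ≠ j → σ.s i b ≠ σ.s j b := by
    refine Filter.Eventually.and ?_ ?_
    · rw [eventually_all]
      exact fun j => eventually_smooth σ (hm c hc) j (hsm j)
    · rw [eventually_all]
      intro i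
      rw [eventually_all]
      intro j
      by_cases hij : i = j
      · exact Eventually.of_forall fun b hb => absurd hij hb
      · filter_upwards [eventually_ne σ (hm c hc) i j (hne i j hij)] with b hb _
        exact hb
  refine ⟨_, hev, fun B' hB' hB hB₀ hcB => ?_⟩
  obtain ⟨x₀, -⟩ := ((σ.F.shrink B' hB' hB).conn (φ c) hcB).nonempty
  have hUo : IsOpen (U ∩ φ ⁻¹' B') := by
    refine ContinuousOn.isOpen_inter_preimage (fun b hb => ?_) hU hB'
    exact (hφ b hb).continuousAt.continuousWithinAt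
  obtain ⟨g', hg', G'⟩ := normS_shrink σ.F hB' hB G hUo inter_subset_left (fun b hb => hb.2) x₀
  let τ : State X₀ P univ :=
    { F := (σ.shrink B' hB' hB x₀).F
      r := (σ.shrink B' hB' hB x₀).r
      s := (σ.shrink B' hB' hB x₀).s
      cont_r := (σ.shrink B' hB' hB x₀).cont_r
      π_r := (σ.shrink B' hB' hB x₀).π_r
      pull := (σ.shrink B' hB' hB x₀).pull
      sec := (σ.shrink B' hB' hB x₀).sec
      rs := (σ.shrink B' hB' hB x₀).rs
      smooth := fun j _ b hb => (shrink_smooth_iff σ hB' hB x₀ j hb).2 ((hB₀ hb).1 j)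
      inj := fun i _ j _ b hb e => by
        by_contra hij
        exact (hB₀ hb).2 i j hij ((shrink_eq_iff σ hB' hB x₀ i j hb).1 e)
      bij := (σ.shrink B' hB' hB x₀).bij }
  refine ⟨τ, g', rfl, ?_, hUo, ?_⟩
  · refine isStable_toFam τ.F τ.s τ.sec (fun j => τ.smooth j (mem_univ _))
      (fun i j => τ.inj i (mem_univ _) j (mem_univ _)) fun b hb => ?_
    refine (hst b (hB hb)).shrink (hB' := hB') (hB := hB) hb ?_
    rintro x ⟨j, e⟩
    refine ⟨j, (shInc_emb σ.F hB' hB).injective ?_⟩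
    change shInc σ.F hB' hB ((σ.shrink B' hB' hB x₀).s j b) = _
    rw [shrink_s_eq σ hB' hB x₀ j hb, e]
  · refine NormS.toL (h := Sum.elim h vL) (z := Sum.elim z zL) G'
      (fun b hb => hφ b hb.1) (fun b hb => hb.2) fun b hb j => ?_
    refine (shInc_emb σ.F hB' hB).injective ?_
    change shInc σ.F hB' hB ((σ.shrink B' hB' hB x₀).s j (φ b)) =
      shInc σ.F hB' hB (g' (vL j) (zL j b) b)
    rw [shrink_s_eq σ hB' hB x₀ j hb.2, hg' b hb, lab j b hb.1]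

/-- The same for 591's invariant, when no label is left at a node. -/
theorem QS_end [Finite V] [Finite L] {X₀ : Surf m} {P : L → (Fin m → ℂ) → X₀.X}
    {σ : State X₀ P ∅} {U : Set (Fin m' → ℂ)} {φ : (Fin m' → ℂ) → Fin m → ℂ}
    {h : E × Bool → V} {z : E × Bool → (Fin m' → ℂ) → OnePoint ℂ}
    {g : V → OnePoint ℂ → (Fin m' → ℂ) → σ.F.S.X} {eK : K → E} {at' : K → Set L} {vL : L → V}
    {zL : L → (Fin m' → ℂ) → OnePoint ℂ} {Uc : K → Set σ.F.S.X} {u v : K → σ.F.S.X → ℂ}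
    {t : K → (Fin m → ℂ) → ℂ} {uf vf : K → L → (Fin m → ℂ) → ℂ}
    (Q : QS σ U φ h z g eK at' vL zL Uc u v t uf vf) (hat : ∀ k j, j ∉ at' k) (hU : IsOpen U)
    (hφ : ∀ b ∈ U, AnalyticAt ℂ φ b) {c : Fin m' → ℂ} (hc : c ∈ U)
    (hd : ∀ i j, vL i = vL j → zL i c = zL j c → i = j)
    (hn : ∀ j y, vL j = h y → zL j c ≠ z y c)
    (hst : ∀ b ∈ σ.F.B, NoFld σ.F.S b {p | ∃ j, σ.s j b = p}) :
    ∃ B₀ ∈ 𝓝 (φ c), ∀ (B' : Set (Fin m → ℂ)) (_ : IsOpen B') (_ : B' ⊆ σ.F.B), B' ⊆ B₀ →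
      φ c ∈ B' → ∃ (τ : State X₀ P univ) (g' : V → OnePoint ℂ → (Fin m' → ℂ) → τ.F.S.X),
        τ.F.B = B' ∧ (toFam τ.F τ.s).IsStable ∧ IsOpen (U ∩ φ ⁻¹' B') ∧
        NormL τ.F.S τ.F.B τ.s (U ∩ φ ⁻¹' B') φ (Sum.elim h vL) (Sum.elim z zL) g' :=
  exists_end σ Q.norm hU hφ Q.mem (fun j => Q.lab j fun k => hat k j) hc hd hn hst

end Vale.Agent.P273.H599

end
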