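import Vale.Agent.P273.H888.Real
import Vale.Agent.P273.H599.End

/-!
The final state of the insertion process over a stratum realizes the marked curves and has the
normalisation data of the stratum.
-/

noncomputable section

open Set Filter Topology

namespace Vale.Agent.P273.H599

open Vale.Agent.P273.H948 (State Surf)
open Vale.Agent.P273.H95 (E pol)
open Vale.Agent.P273.H183 (tot startS Fam)
open Vale.Agent.P273.H507 (Ctr)
open Vale.Agent.P273.H949 (toFam NoFld)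
open Vale.Agent.P273.H395 (NormS NormL Norm)

/-- The base of a state over the start family over `W` is contained in `W`. -/
theorem state_base {L : Type} {m : ℕ} {W : Set (Fin m → ℂ)} {a : (Fin m → ℂ) → Fin 6 → ℂ}
    {hW : IsOpen W} {ha : ∀ b ∈ W, AnalyticAt ℂ a b} {hK : ∀ b ∈ W, a b ∈ H183.K6}
    {P : L → (Fin m → ℂ) → tot W a} {A : Set L} (σ : State (startS W a hW ha hK) P A) :
    σ.F.B ⊆ W := by
  intro b hb
  obtain ⟨x, hx⟩ := (σ.F.conn b hb).nonempty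
  have hx : σ.F.S.π x = b := hx
  rw [← hx, ← σ.π_r x]
  exact H183.pr_mem (σ.r x : tot W a)

section

variable {V Ed : Type} {n m' : ℕ} {M : Type} [NormedAddCommGroup M] [NormedSpace ℂ M]
  {k : (Fin n → ℂ) ≃L[ℂ] M} {ψ : M → E} {S : H95.L → Bool} {sg : M → H95.L → ℂ}
  {W : Set (Fin n → ℂ)}

/-- A stable final state realizes the marked curves. -/
theorem real_of_state (hW : IsOpen W) (ha : ∀ b ∈ W, AnalyticAt ℂ (fun q => (ψ (k q)).1) b)
    (hK : ∀ b ∈ W, (ψ (k b)).1 ∈ H183.K6) [Nonempty (tot W fun q => (ψ (k q)).1)] {A : Set H95.L}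
    (τ : State (startS W (fun q => (ψ (k q)).1) hW ha hK)
      (fun j => H888.posP (S j) (fun q => (ψ (k q)).2 j) (fun q => sg (k q) j)) A)
    (hst : (toFam τ.F τ.s).IsStable)
    (hz : ∀ j, ∀ b ∈ τ.F.B, AnalyticAt ℂ (fun q => (ψ (k q)).2 j) b)
    (hv : ∀ j, ∀ b ∈ τ.F.B, AnalyticAt ℂ (fun q => sg (k q) j) b)
    (hsq : ∀ j, ∀ b ∈ τ.F.B, sg (k b) j ^ 2 = pol (S j) (ψ (k b)).1 ((ψ (k b)).2 j)) :
    H888.Real k ψ S sg (toFam τ.F τ.s) where
  stable := hst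
  ctr := ⟨W, hW, ha, hK, inferInstance, τ.r, state_base τ, H507.ctr_of_state τ⟩
  anz := hz
  anv := hv
  sq := hsq

/-- **The final state over a stratum**: a stable family that realizes the marked curves and has the
normalisation data of the stratum, near the point `c`. -/
theorem real_end [Finite V] (hW : IsOpen W)
    (ha : ∀ b ∈ W, AnalyticAt ℂ (fun q => (ψ (k q)).1) b)
    (hK : ∀ b ∈ W, (ψ (k b)).1 ∈ H183.K6) [Nonempty (tot W fun q => (ψ (k q)).1)]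
    (hz : ∀ j, ∀ b ∈ W, AnalyticAt ℂ (fun q => (ψ (k q)).2 j) b)
    (hv : ∀ j, ∀ b ∈ W, AnalyticAt ℂ (fun q => sg (k q) j) b)
    (hsq : ∀ j, ∀ b ∈ W, sg (k b) j ^ 2 = pol (S j) (ψ (k b)).1 ((ψ (k b)).2 j)) {A : Set H95.L}
    (σ : State (startS W (fun q => (ψ (k q)).1) hW ha hK)
      (fun j => H888.posP (S j) (fun q => (ψ (k q)).2 j) (fun q => sg (k q) j)) A)
    {U : Set (Fin m' → ℂ)} {φ : (Fin m' → ℂ) → Fin n → ℂ}
    {h : Ed × Bool → V} {z : Ed × Bool → (Fin m' → ℂ) → OnePoint ℂ}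
    {g : V → OnePoint ℂ → (Fin m' → ℂ) → σ.F.S.X} {vL : H95.L → V}
    {zL : H95.L → (Fin m' → ℂ) → OnePoint ℂ} (G : NormS σ.F.S U φ h z g) (hU : IsOpen U)
    (hφ : ∀ b ∈ U, AnalyticAt ℂ φ b) (hm : ∀ b ∈ U, φ b ∈ σ.F.B)
    (lab : ∀ j, ∀ b ∈ U, σ.s j (φ b) = g (vL j) (zL j b) b) {c : Fin m' → ℂ} (hc : c ∈ U)
    (hd : ∀ i j, vL i = vL j → zL i c = zL j c → i = j)
    (hn : ∀ j y, vL j = h y → zL j c ≠ z y c)
    (hst : ∀ b ∈ σ.F.B, NoFld σ.F.S b {p | ∃ j, σ.s j b = p}) :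
    ∃ C : Fam H95.L n, H888.Real k ψ S sg C ∧ φ c ∈ C.B ∧ C.B ⊆ σ.F.B ∧
      ∃ U' : Set (Fin m' → ℂ), IsOpen U' ∧ c ∈ U' ∧ U' ⊆ U ∧
        ∃ g', Norm C U' φ (Sum.elim h vL) (Sum.elim z zL) g' := by
  obtain ⟨B₀, hB₀, key⟩ := exists_end σ G hU hφ hm lab hc hd hn hst
  obtain ⟨O, hOB, hO, hcO⟩ := mem_nhds_iff.1 hB₀
  obtain ⟨τ, g', hτ, hs, hUo, hN⟩ := key (O ∩ σ.F.B) (hO.inter σ.F.openB) inter_subset_right
    (fun b hb => hOB hb.1) ⟨hcO, hm c hc⟩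
  have hBW : ∀ b ∈ τ.F.B, b ∈ W := fun b hb => state_base τ hb
  refine ⟨toFam τ.F τ.s, real_of_state hW ha hK τ hs (fun j b hb => hz j b (hBW b hb))
    (fun j b hb => hv j b (hBW b hb)) (fun j b hb => hsq j b (hBW b hb)), ?_, ?_,
    U ∩ φ ⁻¹' (O ∩ σ.F.B), hUo, ⟨hc, hcO, hm c hc⟩, inter_subset_left, g', hN.norm⟩
  · change φ c ∈ τ.F.B
    rw [hτ]
    exact ⟨hcO, hm c hc⟩
  · change τ.F.B ⊆ σ.F.B
    rw [hτ]
    exact inter_subset_right

end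

end Vale.Agent.P273.H599

end
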