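import Vale.Agent.P273.H228.Loop
import Vale.Agent.P273.H67.ChooseB
import Vale.Agent.P273.H724.Good0
import Vale.Agent.P273.H728.ExtOf
import Vale.Agent.P273.H183.Restr

/-!
The choice of the base near a point of an open stratum: 228's structure `Bas` for the region.
-/

noncomputable section

open Set Filter Topology

namespace Vale.Agent.P273.H599

open Vale.Agent.P273.H95 Vale.Agent.P273.H93 Vale.Agent.P273.H888 Vale.Agent.P273.H724
open Vale.Agent.P273.H183 (tot startS inT inT_injective smooth_inT)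
open Vale.Agent.P273.H728 (rg)
open Vale.Agent.P273.H67 (tau)

section node

variable {n : ℕ} {R : Region} {κ : (Fin n → ℂ) ≃L[ℂ] R.Sp} {S : H95.L → Bool}
  {W : Set (Fin n → ℂ)}

/-- A neck mark with `X = Y = 0` is at a node. -/
theorem not_smooth (hS : Far R S) (hW : IsOpen W) (hWd : W ⊆ base0 κ S)
    [Nonempty (tot W (co0 κ))] {b : Fin n → ℂ} (hb : b ∈ W) {x : H95.L} {k : Fin 3}
    (hx : R.pl x = Sum.inl k) (hX : R.XX (κ b) k (R.rk x) = 0) (hY : R.YY (κ b) k (R.rk x) = 0)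
    (ha : ∀ b ∈ W, AnalyticAt ℂ (co0 κ) b) (hK : ∀ b ∈ W, co0 κ b ∈ H183.K6) :
    ¬ (startS W (co0 κ) hW ha hK).SmoothAt (posP (S x) (z0 κ x) (v0 κ S x) b) := by
  have hb' : b ∈ base0 κ S := hWd hb
  obtain ⟨Q⟩ := (inferInstance : Nonempty (tot W (co0 κ)))
  have : Nonempty (tot (base0 κ S) (co0 κ)) := ⟨inT hWd Q⟩
  intro hs
  have h1 : (startS (base0 κ S) (co0 κ) base0_open (fun b _ => co0_an b) co0_K).SmoothAt
      (inT hWd (posP (S x) (z0 κ x) (v0 κ S x) b : tot W (co0 κ))) :=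
    (smooth_inT base0_open (fun b _ => co0_an b) co0_K hW hWd).1 hs
  have h2 : inT hWd (posP (S x) (z0 κ x) (v0 κ S x) b : tot W (co0 κ)) =
      posP (S x) (z0 κ x) (v0 κ S x) b := by
    refine Subtype.ext ?_
    rw [posP_val hb' (sq0 hS x hb')]
    exact posP_val hb (sq0 hS x hb')
  rw [h2] at h1
  have hv : R.sht S (κ b) x = 0 := (sht_neck_zero hb' hx).2 (by rw [hX, hY])
  obtain ⟨N, u, v, t, k1, k2, k3⟩ := model0 hS hb' hx hv
  obtain ⟨k4, k5⟩ := (k3 x hx rfl).self_of_nhds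
  rcases h1.all k1 k2 with h | h
  · exact h (k4.trans hX)
  · exact h (k5.trans hY)

end node

/-- The condition on the base near a point of the stratum. -/
def PrB {n : ℕ} (T : RB) (S : Mk → Bool) (κ : (Fin n → ℂ) ≃L[ℂ] (rg T).Sp) (ε : ℝ)
    (b : Fin n → ℂ) : Prop :=
  κ b ∈ (rg T).dom S ∧
  (∀ k i j, (∀ g ∈ T.B k, ¬ (i ≤ g ∧ g < j)) → ε < ‖∏ g ∈ Finset.Ico i j, tau (κ b) k g‖) ∧
  ∀ k i j, (∃ g ∈ T.B k, i ≤ g ∧ g < j) → ‖∏ g ∈ Finset.Ico i j, tau (κ b) k g‖ < ε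

/-- **The choice of the base.** -/
theorem exists_prB {n : ℕ} {T : RB} {S : Mk → Bool} {κ : (Fin n → ℂ) ≃L[ℂ] (rg T).Sp}
    {p : (rg T).Sp} (hp : p ∈ (rg T).dom S)
    (hg : ∀ g : (rg T).Gap, p.1 g = 0 ↔ (g.2 : ℕ) ∈ T.B g.1) {ε₀ : ℝ} (h0 : 0 < ε₀) :
    ∃ ε, 0 < ε ∧ ε < ε₀ ∧ ∀ᶠ b in 𝓝 (κ.symm p), PrB T S κ ε b := by
  obtain ⟨ε, h1, h2, h3⟩ := H67.exists_base (R := rg T) (B := T.B) (c := p) hg T.sub
    (F := fun (_ : Unit) _ => (0 : ℂ)) (fun _ => continuousAt_const) h0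
  refine ⟨ε, h1, h2, ?_⟩
  have hk : Tendsto κ (𝓝 (κ.symm p)) (𝓝 p) := by
    have := κ.continuous.tendsto (κ.symm p)
    rwa [κ.apply_symm_apply] at this
  filter_upwards [hk.eventually h3, hk.eventually ((P_open (R := rg T) (S := S)).mem_nhds hp)]
    with b h4 h5
  exact ⟨h5, h4.1, h4.2.1⟩

/-- **228's `Bas` for the region.** -/
theorem bas_of {n m' : ℕ} {T : RB} {S : Mk → Bool} (hS : Far (rg T) S)
    {κ : (Fin n → ℂ) ≃L[ℂ] (rg T).Sp} {W : Set (Fin n → ℂ)} (hW : IsOpen W)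
    (hWd : W ⊆ base0 κ S) [Nonempty (tot W (co0 κ))]
    (ha : ∀ b ∈ W, AnalyticAt ℂ (co0 κ) b) (hK : ∀ b ∈ W, co0 κ b ∈ H183.K6)
    {B : Set (Fin n → ℂ)} (hBW : B ⊆ W) {ε : ℝ} (hε : 0 < ε) (hB : ∀ b ∈ B, PrB T S κ ε b)
    {U : Set (Fin m' → ℂ)} (hU : IsOpen U) (hne : U.Nonempty)
    {φ : (Fin m' → ℂ) → (rg T).Sp} (hφ : ∀ b ∈ U, AnalyticAt ℂ φ b)
    (hg : ∀ b ∈ U, ∀ g : (rg T).Gap, (φ b).1 g = 0 ↔ (g.2 : ℕ) ∈ T.B g.1) :
    H228.Bas T (fun b k g => tau (κ b) k g) B U (fun b => κ.symm (φ b))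
      (startS W (co0 κ) hW ha hK) (fun x => posP (S x) (z0 κ x) (v0 κ S x)) ε where
  pos := hε
  an b _ k g := AnalyticAt.comp (g := fun q : (rg T).Sp => tau q k g) (H67.analyticAt_tau k g _)
    (an_k b)
  lg b hb := (hB b hb).2.1
  sm b hb := (hB b hb).2.2
  zero b hb k g hgB := by
    simp only [κ.apply_symm_apply]
    exact (H67.tau_eq_zero_iff (hg b hb) T.sub k g).2 hgB
  node b hb k x hx hu hv := by
    refine not_smooth hS hW hWd (hBW hb) (R := rg T) hx ?_ ?_ ha hK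
    · rw [H67.XX_J]
      exact hu
    · rw [H67.YY_J]
      exact hv
  opn := hU
  ne := hne
  anφ b hb := by
    have h1 : AnalyticAt ℂ (fun p : (rg T).Sp => κ.symm p) (φ b) :=
      (κ.symm : (rg T).Sp →L[ℂ] (Fin n → ℂ)).analyticAt _
    exact AnalyticAt.comp (g := fun p : (rg T).Sp => κ.symm p) h1 (hφ b hb)

end Vale.Agent.P273.H599

end
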