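import Vale.Agent.P273.H599.Liou
import Vale.Agent.P273.H599.Inj
import Vale.Agent.P273.H183.Fam

/-!
Holomorphic vector fields on the fibres of a family of nodal curves (`Fam.IsField` of H183) along
injectively immersed discs (arcs): along an arc a field is a holomorphic function, which vanishes
at the nodes and at the marked points.
-/

noncomputable section

namespace Vale.Agent.P273.H599

open Set Filter Topology H183

section Chart

variable {X : Type} [TopologicalSpace X] {m : ℕ} {π : X → Fin m → ℂ}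
  {hol : (X → ℂ) → X → Prop} {U : Set X} {x y : X → ℂ} {t : (Fin m → ℂ) → ℂ}

theorem chart_eq (h : IsChart π hol U x y t) {p : X} (hp : p ∈ U) : x p * y p = t (π p) := by
  obtain ⟨W, -, e⟩ := (h.2.2.2.1 U subset_rfl).1 h.1
  have : (π p, x p, y p) ∈ {w ∈ W | w.2.1 * w.2.2 = t w.1} := e ▸ mem_image_of_mem _ hp
  exact this.2

theorem chart_cont (h : IsChart π hol U x y t) {p : X} (hp : p ∈ U) :
    ContinuousAt (fun q => (π q, x q, y q)) p := by
  rw [ContinuousAt, tendsto_nhds]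
  intro S hS hpS
  obtain ⟨W, hW, e⟩ := (h.2.2.2.1 U subset_rfl).1 h.1
  have h1 : IsOpen (U ∩ (fun q => (π q, x q, y q)) ⁻¹' S) := by
    refine (h.2.2.2.1 _ inter_subset_left).2 ⟨W ∩ S, hW.inter hS, ?_⟩
    ext z
    constructor
    · rintro ⟨q, ⟨hq, hs⟩, rfl⟩
      have : (π q, x q, y q) ∈ {w ∈ W | w.2.1 * w.2.2 = t w.1} := e ▸ mem_image_of_mem _ hq
      exact ⟨⟨this.1, hs⟩, this.2⟩
    · rintro ⟨⟨hw, hs⟩, hz⟩
      have : z ∈ (fun p => (π p, x p, y p)) '' U := by rw [e]; exact ⟨hw, hz⟩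
      obtain ⟨q, hq, rfl⟩ := this
      exact ⟨q, ⟨hq, hs⟩, rfl⟩
  filter_upwards [h1.mem_nhds ⟨hp, hpS⟩] with q hq using hq.2

theorem chart_symm (h : IsChart π hol U x y t) : IsChart π hol U y x t := by
  set sw : (Fin m → ℂ) × ℂ × ℂ → (Fin m → ℂ) × ℂ × ℂ := fun w => (w.1, w.2.2, w.2.1) with hsw
  have hswc : Continuous sw := by fun_prop
  have hswi : ∀ w, sw (sw w) = w := fun w => rfl
  have hswa : ∀ w, AnalyticAt ℂ sw w := fun w =>
    analyticAt_fst.prod ((analyticAt_snd.comp analyticAt_snd).prod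
      (analyticAt_fst.comp analyticAt_snd))
  refine ⟨h.1, h.2.1, fun p hp q hq e => h.2.2.1 hp hq (congrArg sw e), fun V hV => ?_,
    fun p hp f => ?_⟩
  · rw [h.2.2.2.1 V hV]
    constructor
    · rintro ⟨W, hW, e⟩
      refine ⟨sw ⁻¹' W, hW.preimage hswc, ?_⟩
      ext w
      constructor
      · rintro ⟨p, hp, rfl⟩
        have : (π p, x p, y p) ∈ {w ∈ W | w.2.1 * w.2.2 = t w.1} := e ▸ mem_image_of_mem _ hp
        exact ⟨this.1, (mul_comm _ _).trans this.2⟩
      · rintro ⟨h1, h2⟩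
        have : sw w ∈ (fun p => (π p, x p, y p)) '' V := by
          rw [e]; exact ⟨h1, (mul_comm _ _).trans h2⟩
        obtain ⟨p, hp, h3⟩ := this
        exact ⟨p, hp, congrArg sw h3⟩
    · rintro ⟨W, hW, e⟩
      refine ⟨sw ⁻¹' W, hW.preimage hswc, ?_⟩
      ext w
      constructor
      · rintro ⟨p, hp, rfl⟩
        have : (π p, y p, x p) ∈ {w ∈ W | w.2.1 * w.2.2 = t w.1} := e ▸ mem_image_of_mem _ hp
        exact ⟨this.1, (mul_comm _ _).trans this.2⟩
      · rintro ⟨h1, h2⟩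
        have : sw w ∈ (fun p => (π p, y p, x p)) '' V := by
          rw [e]; exact ⟨h1, (mul_comm _ _).trans h2⟩
        obtain ⟨p, hp, h3⟩ := this
        exact ⟨p, hp, congrArg sw h3⟩
  · rw [h.2.2.2.2 p hp f]
    constructor
    · rintro ⟨g, hg, he⟩
      exact ⟨g ∘ sw, AnalyticAt.comp (g := g) (f := sw) (x := (π p, y p, x p)) hg (hswa _), he⟩
    · rintro ⟨g, hg, he⟩
      exact ⟨g ∘ sw, AnalyticAt.comp (g := g) (f := sw) (x := (π p, x p, y p)) hg (hswa _), he⟩

theorem chart_hol (h : IsChart π hol U x y t) {p : X} (hp : p ∈ U) {g : (Fin m → ℂ) × ℂ × ℂ → ℂ}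
    (hg : AnalyticAt ℂ g (π p, x p, y p)) : hol (fun q => g (π q, x q, y q)) p :=
  (h.2.2.2.2 p hp _).2 ⟨g, hg, Eventually.of_forall fun _ => rfl⟩

theorem chart_hol_comp (h : IsChart π hol U x y t) {p : X} (hp : p ∈ U) {G : ℂ → ℂ}
    (hG : AnalyticAt ℂ G (x p)) : hol (fun q => G (x q)) p :=
  chart_hol h hp (g := fun w => G w.2.1)
    (AnalyticAt.comp (g := G) (f := fun w : (Fin m → ℂ) × ℂ × ℂ => w.2.1)
      (x := (π p, x p, y p)) hG (analyticAt_fst.comp analyticAt_snd))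

theorem chart_hol_x (h : IsChart π hol U x y t) {p : X} (hp : p ∈ U) : hol x p :=
  chart_hol_comp h hp (G := fun z => z) analyticAt_id

theorem chart_hol_y (h : IsChart π hol U x y t) {p : X} (hp : p ∈ U) : hol y p :=
  chart_hol_x (chart_symm h) hp

theorem chart_hol_const (h : IsChart π hol U x y t) {p : X} (hp : p ∈ U) (a : ℂ) :
    hol (fun _ => a) p := chart_hol_comp h hp (G := fun _ => a) analyticAt_const

/-- On the fibre, near a point with `x ≠ 0`, the holomorphic functions are functions of `x`. -/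
theorem chart_fun (h : IsChart π hol U x y t) {p : X} (hp : p ∈ U) (hx : x p ≠ 0) {f : X → ℂ}
    (hf : hol f p) : ∃ G : ℂ → ℂ, AnalyticAt ℂ G (x p) ∧
      f =ᶠ[𝓝[{q | π q = π p}] p] fun q => G (x q) := by
  obtain ⟨g, hg, he⟩ := (h.2.2.2.2 p hp f).1 hf
  refine ⟨fun ξ => g (π p, ξ, t (π p) / ξ), ?_, ?_⟩
  · have hy : y p = t (π p) / x p := by rw [eq_div_iff hx, mul_comm]; exact chart_eq h hp
    have h1 : AnalyticAt ℂ (fun ξ : ℂ => ((π p, ξ, t (π p) / ξ) : (Fin m → ℂ) × ℂ × ℂ)) (x p) :=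
      analyticAt_const.prod (analyticAt_id.prod (analyticAt_const.div analyticAt_id hx))
    rw [hy] at hg
    exact AnalyticAt.comp (g := g) hg h1
  · have h2 : ∀ᶠ q in 𝓝 p, q ∈ U := h.1.mem_nhds hp
    have hxc : ContinuousAt x p := (chart_cont h hp).snd.fst
    have h3 : ∀ᶠ q in 𝓝 p, x q ≠ 0 := hxc.eventually_ne hx
    filter_upwards [he.filter_mono nhdsWithin_le_nhds, h2.filter_mono nhdsWithin_le_nhds,
      h3.filter_mono nhdsWithin_le_nhds, self_mem_nhdsWithin] with q h4 h5 h6 h7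
    have h7' : π q = π p := h7
    have hy : y q = t (π p) / x q := by
      rw [eq_div_iff h6, mul_comm, ← h7']; exact chart_eq h h5
    rw [h4, h7', hy]

end Chart

section Field

variable {L : Type} {m : ℕ} {C : Fam L m} {b : Fin m → ℂ} {D : (C.X → ℂ) → C.X → ℂ}
  {U : Set C.X} {x y : C.X → ℂ} {t : (Fin m → ℂ) → ℂ}

theorem field_smooth (h : IsChart C.π C.hol U x y t) (hD : C.IsField b D) {p : C.X} (hp : p ∈ U)
    (hb : C.π p = b) {G : ℂ → ℂ} (hG : AnalyticAt ℂ G (x p)) :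
    D (fun q => G (x q)) p = deriv G (x p) * D x p := by
  set K := dslope G (x p) with hK
  have hKa : AnalyticAt ℂ K (x p) := by
    have h1 : ∀ᶠ z in 𝓝 (x p), AnalyticAt ℂ G z := hG.eventually_analyticAt
    obtain ⟨S, hS, hSo, hxS⟩ := eventually_nhds_iff.1 h1
    have h2 : DifferentiableOn ℂ K S := (Complex.differentiableOn_dslope (hSo.mem_nhds hxS)).2
      fun z hz => (hS z hz).differentiableAt.differentiableWithinAt
    exact h2.analyticAt (hSo.mem_nhds hxS)
  have hfib : p ∈ C.fib b := hb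
  have hx := chart_hol_x h hp
  have hxs : C.hol (fun q => x q + -x p) p := chart_hol_comp h hp (G := fun z => z + -x p)
    (analyticAt_id.add analyticAt_const)
  have hKx : C.hol (fun q => K (x q)) p := chart_hol_comp h hp hKa
  have hc : ∀ a : ℂ, C.hol (fun _ => a) p := fun a => chart_hol_const h hp a
  have hprod : C.hol (fun q => (x q + -x p) * K (x q)) p :=
    chart_hol_comp h hp (G := fun z => (z + -x p) * K z)
      ((analyticAt_id.add analyticAt_const).mul hKa)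
  have e1 : (fun q => G (x q)) = (fun _ => G (x p)) + fun q => (x q + -x p) * K (x q) := by
    funext q
    simp only [Pi.add_apply]
    have := sub_smul_dslope G (x p) (x q)
    rw [smul_eq_mul] at this
    rw [← sub_eq_add_neg, hK, this]
    ring
  have e2 : (fun q => (x q + -x p) * K (x q)) = (fun q => x q + -x p) * fun q => K (x q) := rfl
  have e3 : (fun q => x q + -x p) = x + fun _ => -x p := rfl
  rw [e1, ((hD.1 p hfib _ _ (hc _) hprod).1), hD.2.1 p hfib, e2,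
    ((hD.1 p hfib _ _ hxs hKx).2.1), e3, ((hD.1 p hfib _ _ hx (hc _)).1), hD.2.1 p hfib]
  simp only [Pi.add_apply, add_neg_cancel, zero_mul, add_zero, zero_add]
  rw [hK, dslope_same]

theorem field_chain (h : IsChart C.π C.hol U x y t) (hD : C.IsField b D) {p : C.X} (hp : p ∈ U)
    (hb : C.π p = b) {G : ℂ → ℂ} (hG : AnalyticAt ℂ G (x p)) {f : C.X → ℂ} (hf : C.hol f p)
    (hfG : f =ᶠ[𝓝[C.fib b] p] fun q => G (x q)) : D f p = deriv G (x p) * D x p := by
  rw [(hD.1 p hb f _ hf (chart_hol_comp h hp hG)).2.2.1 hfG]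
  exact field_smooth h hD hp hb hG

/-- At a node `D x = 0`. -/
theorem field_node (h : IsChart C.π C.hol U x y t) (hD : C.IsField b D) {p : C.X} (hp : p ∈ U)
    (hb : C.π p = b) (hx : x p = 0) (hy : y p = 0) : D x p = 0 := by
  have ht : t b = 0 := by rw [← hb, ← chart_eq h hp, hx, zero_mul]
  -- the points of the branch `x = 0`
  obtain ⟨W, hW, e⟩ := (h.2.2.2.1 U subset_rfl).1 h.1
  have hpW : ((b, 0, 0) : (Fin m → ℂ) × ℂ × ℂ) ∈ W := by
    have : (C.π p, x p, y p) ∈ {w ∈ W | w.2.1 * w.2.2 = t w.1} := e ▸ mem_image_of_mem _ hp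
    rw [hb, hx, hy] at this
    exact this.1
  obtain ⟨k, hk, hke⟩ := (hD.1 p hb x x (chart_hol_x h hp) (chart_hol_x h hp)).2.2.2
  obtain ⟨g, hg, hge⟩ := (h.2.2.2.2 p hp k).1 hk
  rw [hb, hx, hy] at hg
  -- near `p` on the fibre, `D x = g (b, x, y)`
  have h1 : ∀ᶠ q in 𝓝 p, C.π q = b → D x q = g (b, x q, y q) := by
    rw [EventuallyEq, eventually_nhdsWithin_iff] at hke
    filter_upwards [hke, hge] with q h1 h2 h3
    rw [h1 h3, h2, h3]
  obtain ⟨V, hV, hVo, hpV⟩ := eventually_nhds_iff.1 h1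
  obtain ⟨W', hW', e'⟩ := (h.2.2.2.1 (U ∩ V) inter_subset_left).1 (h.1.inter hVo)
  have hpW' : ((b, 0, 0) : (Fin m → ℂ) × ℂ × ℂ) ∈ W' := by
    have : (C.π p, x p, y p) ∈ {w ∈ W' | w.2.1 * w.2.2 = t w.1} :=
      e' ▸ mem_image_of_mem _ ⟨hp, hpV⟩
    rw [hb, hx, hy] at this
    exact this.1
  -- for small `η ≠ 0`, there is `q ∈ U ∩ V` with coordinates `(b, 0, η)`
  have h2 : ∀ᶠ η : ℂ in 𝓝[≠] 0, g (b, 0, η) = 0 := by
    have hc : Continuous fun η : ℂ => ((b, 0, η) : (Fin m → ℂ) × ℂ × ℂ) := by fun_prop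
    have h3 : ∀ᶠ η : ℂ in 𝓝 0, ((b, 0, η) : (Fin m → ℂ) × ℂ × ℂ) ∈ W' :=
      (hW'.preimage hc).mem_nhds hpW'
    filter_upwards [h3.filter_mono nhdsWithin_le_nhds, self_mem_nhdsWithin] with η h4 h5
    have h6 : ((b, 0, η) : (Fin m → ℂ) × ℂ × ℂ) ∈
        (fun q => (C.π q, x q, y q)) '' (U ∩ V) := by
      rw [e']; exact ⟨h4, by simp [ht]⟩
    obtain ⟨q, ⟨hqU, hqV⟩, hq⟩ := h6
    simp only [Prod.mk.injEq] at hq
    obtain ⟨hq1, hq2, hq3⟩ := hq
    have h7 := hV q hqV hq1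
    rw [hq2, hq3] at h7
    rw [← h7]
    -- the product `x y` is constant on the fibre
    have h8 : D (x * y) q = D (fun _ => t b) q := by
      have hxy : C.hol (x * y) q := chart_hol h hqU (g := fun w => w.2.1 * w.2.2)
        ((analyticAt_fst.comp analyticAt_snd).mul (analyticAt_snd.comp analyticAt_snd))
      refine (hD.1 q hq1 _ _ hxy (chart_hol_const h hqU _)).2.2.1 ?_
      have hUq : ∀ᶠ r in 𝓝 q, r ∈ U := h.1.mem_nhds hqU
      filter_upwards [hUq.filter_mono nhdsWithin_le_nhds, self_mem_nhdsWithin] with r hr hr'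
      have hr2 : C.π r = b := hr'
      rw [Pi.mul_apply, chart_eq h hr, hr2]
    rw [(hD.1 q hq1 _ _ (chart_hol_x h hqU) (chart_hol_y h hqU)).2.1, hD.2.1 q hq1, hq2, hq3,
      zero_mul, zero_add] at h8
    exact (mul_eq_zero.1 h8).resolve_left h5
  have h3 : g (b, 0, 0) = 0 := by
    have hc : ContinuousAt (fun η : ℂ => g (b, 0, η)) 0 := by
      have : ContinuousAt (fun η : ℂ => ((b, 0, η) : (Fin m → ℂ) × ℂ × ℂ)) 0 := by fun_prop
      exact ContinuousAt.comp (g := g) hg.continuousAt this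
    refine tendsto_nhds_unique (hc.tendsto.mono_left (nhdsWithin_le_nhds (s := {0}ᶜ))) ?_
    exact (tendsto_congr' (h2 : ∀ᶠ η : ℂ in 𝓝[≠] 0, g (b, 0, η) = 0)).2 tendsto_const_nhds
  rw [h1.self_of_nhds hb, hx, hy, h3]

/-- An injectively immersed disc (or plane domain) in the fibre over `b`. -/
structure Arc (C : Fam L m) (b : Fin m → ℂ) (μ : ℂ → C.X) (N : Set ℂ) : Prop where
  op : IsOpen N
  fib : ∀ u ∈ N, C.π (μ u) = b
  cont : ∀ u ∈ N, ContinuousAt μ u
  hol : ∀ u ∈ N, ∀ f, C.hol f (μ u) → AnalyticAt ℂ (fun u => f (μ u)) u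
  inj : InjOn μ N

variable {μ : ℂ → C.X} {N : Set ℂ}

/-- If `y` is a function of `x` along an arc, then `x` is a coordinate on the arc. -/
theorem Arc.key (h : IsChart C.π C.hol U x y t) (hμ : Arc C b μ N) {u : ℂ} (hu : u ∈ N)
    (hp : μ u ∈ U) (h2 : x (μ u) ≠ 0 ∨ ∀ᶠ v in 𝓝 u, y (μ v) = 0) :
    deriv (fun u => x (μ u)) u ≠ 0 := by
  have hX := hμ.hol u hu x (chart_hol_x h hp)
  have hev : ∀ᶠ v in 𝓝 u, v ∈ N ∧ μ v ∈ U ∧ AnalyticAt ℂ (fun u => x (μ u)) v ∧
      ((x (μ u) ≠ 0 ∧ x (μ v) ≠ 0) ∨ y (μ v) = 0) := by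
    have h3 : ∀ᶠ v in 𝓝 u, (x (μ u) ≠ 0 ∧ x (μ v) ≠ 0) ∨ y (μ v) = 0 := by
      rcases h2 with h2 | h2
      · filter_upwards [hX.continuousAt.eventually_ne h2] with v hv using Or.inl ⟨h2, hv⟩
      · filter_upwards [h2] with v hv using Or.inr hv
    filter_upwards [hμ.op.mem_nhds hu, (hμ.cont u hu).eventually_mem (h.1.mem_nhds hp),
      hX.eventually_analyticAt, h3] with v a1 a2 a3 a4 using ⟨a1, a2, a3, a4⟩
  obtain ⟨S, hS, hSo, huS⟩ := eventually_nhds_iff.1 hev
  refine injOn_deriv_ne_zero hSo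
    (fun v hv => (hS v hv).2.2.1.differentiableAt.differentiableWithinAt) ?_ huS
  intro v hv v' hv' e
  have e' : x (μ v) = x (μ v') := e
  have hv1 := hS v hv
  have hv2 := hS v' hv'
  have hπ : C.π (μ v) = C.π (μ v') := by rw [hμ.fib v hv1.1, hμ.fib v' hv2.1]
  have c1 := chart_eq h hv1.2.1
  have c2 := chart_eq h hv2.2.1
  have hy : y (μ v) = y (μ v') := by
    by_cases hx0 : x (μ v) = 0
    · have b1 : y (μ v) = 0 := (hv1.2.2.2.resolve_left fun a => a.2 hx0)
      have b2 : y (μ v') = 0 := (hv2.2.2.2.resolve_left fun a => a.2 (e' ▸ hx0))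
      rw [b1, b2]
    · refine mul_left_cancel₀ hx0 ?_
      rw [c1, hπ, ← c2, e']
  exact hμ.inj hv1.1 hv2.1 (h.2.2.1 hv1.2.1 hv2.2.1 (by simp only [hπ, e', hy]))

/-- In a chart, one of the two coordinates is a coordinate on the arc, and the other coordinate is a
function of the first (or zero, at a node). -/
theorem Arc.coord (h : IsChart C.π C.hol U x y t) (hμ : Arc C b μ N) {u : ℂ} (hu : u ∈ N)
    (hp : μ u ∈ U) :
    (deriv (fun u => x (μ u)) u ≠ 0 ∧ (x (μ u) ≠ 0 ∨ y (μ u) = 0)) ∨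
      (deriv (fun u => y (μ u)) u ≠ 0 ∧ (y (μ u) ≠ 0 ∨ x (μ u) = 0)) := by
  by_cases hx : x (μ u) = 0
  · by_cases hy : y (μ u) = 0
    · -- a node: one of the two vanishes along the arc
      have ht : t b = 0 := by rw [← hμ.fib u hu, ← chart_eq h hp, hx, zero_mul]
      have hX := hμ.hol u hu x (chart_hol_x h hp)
      have hY := hμ.hol u hu y (chart_hol_y h hp)
      have hXY : ∀ᶠ v in 𝓝 u, x (μ v) * y (μ v) = 0 := by
        filter_upwards [hμ.op.mem_nhds hu, (hμ.cont u hu).eventually_mem (h.1.mem_nhds hp)]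
          with v a1 a2
        rw [chart_eq h a2, hμ.fib v a1, ht]
      rcases hX.eventually_eq_zero_or_eventually_ne_zero with h1 | h1
      · right
        exact ⟨hμ.key (chart_symm h) hu hp (Or.inr h1), Or.inr hx⟩
      · have h2 : ∀ᶠ v in 𝓝 u, y (μ v) = 0 := by
          rcases hY.eventually_eq_zero_or_eventually_ne_zero with h3 | h3
          · exact h3
          · exfalso
            obtain ⟨v, a1, a2, a3⟩ := (h1.and (h3.and (hXY.filter_mono nhdsWithin_le_nhds))).exists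
            exact (mul_ne_zero a1 a2) a3
        left
        exact ⟨hμ.key h hu hp (Or.inr h2), Or.inr hy⟩
    · right
      exact ⟨hμ.key (chart_symm h) hu hp (Or.inl hy), Or.inl hy⟩
  · left
    exact ⟨hμ.key h hu hp (Or.inl hx), Or.inl hx⟩

/-- A coordinate on an arc. -/
theorem Arc.exists_coord (hch : ∀ p, ∃ U x y t, p ∈ U ∧ IsChart C.π C.hol U x y t)
    (hμ : Arc C b μ N) {u : ℂ} (hu : u ∈ N) :
    ∃ U x y t, μ u ∈ U ∧ IsChart C.π C.hol U x y t ∧ deriv (fun u => x (μ u)) u ≠ 0 ∧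
      (x (μ u) ≠ 0 ∨ y (μ u) = 0) := by
  obtain ⟨U, x, y, t, hp, h⟩ := hch (μ u)
  rcases hμ.coord h hu hp with ⟨h1, h2⟩ | ⟨h1, h2⟩
  · exact ⟨U, x, y, t, hp, h, h1, h2⟩
  · exact ⟨U, y, x, t, hp, chart_symm h, h1, h2⟩

/-- The point `p` of the fibre is a node. -/
def IsNode (C : Fam L m) (p : C.X) : Prop :=
  ∃ U x y t, p ∈ U ∧ IsChart C.π C.hol U x y t ∧ x p = 0 ∧ y p = 0

/-- The value `δ` of the field at the parameter `u` of an arc. -/
def Val (C : Fam L m) (D : (C.X → ℂ) → C.X → ℂ) (μ : ℂ → C.X) (u δ : ℂ) : Prop :=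
  ∀ f, C.hol f (μ u) → D f (μ u) = deriv (fun u => f (μ u)) u * δ

theorem Val.unique (hch : ∀ p, ∃ U x y t, p ∈ U ∧ IsChart C.π C.hol U x y t)
    (hμ : Arc C b μ N) {u : ℂ} (hu : u ∈ N) {δ δ' : ℂ} (h1 : Val C D μ u δ)
    (h2 : Val C D μ u δ') : δ = δ' := by
  obtain ⟨U, x, y, t, hp, h, hx, -⟩ := hμ.exists_coord hch hu
  have := (h1 x (chart_hol_x h hp)).symm.trans (h2 x (chart_hol_x h hp))
  exact mul_left_cancel₀ hx this

/-- The value at a smooth point. -/
theorem val_smooth (h : IsChart C.π C.hol U x y t) (hD : C.IsField b D) (hμ : Arc C b μ N)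
    {u : ℂ} (hu : u ∈ N) (hp : μ u ∈ U) (hx : x (μ u) ≠ 0)
    (hx' : deriv (fun u => x (μ u)) u ≠ 0) :
    Val C D μ u (D x (μ u) / deriv (fun u => x (μ u)) u) := by
  intro f hf
  have hb := hμ.fib u hu
  obtain ⟨G, hG, hfG⟩ := chart_fun h hp hx hf
  rw [hb] at hfG
  have hX := hμ.hol u hu x (chart_hol_x h hp)
  have hT : Tendsto μ (𝓝 u) (𝓝[C.fib b] (μ u)) := by
    rw [tendsto_nhdsWithin_iff]
    refine ⟨hμ.cont u hu, ?_⟩
    filter_upwards [hμ.op.mem_nhds hu] with v hv using hμ.fib v hv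
  have h1 : (fun v => f (μ v)) =ᶠ[𝓝 u] fun v => G (x (μ v)) := hT.eventually hfG
  have h2 : deriv (fun v => f (μ v)) u = deriv G (x (μ u)) * deriv (fun u => x (μ u)) u := by
    rw [h1.deriv_eq]
    exact deriv_comp u hG.differentiableAt hX.differentiableAt
  rw [field_chain h hD hp hb hG hf hfG, h2]
  field_simp

/-- **A vector field along an arc is a holomorphic function.** -/
theorem Arc.exists_val (hch : ∀ p, ∃ U x y t, p ∈ U ∧ IsChart C.π C.hol U x y t)
    (hD : C.IsField b D) (hμ : Arc C b μ N) :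
    ∃ δ : ℂ → ℂ, AnalyticOnNhd ℂ δ N ∧ (∀ u ∈ N, Val C D μ u (δ u)) ∧
      (∀ u ∈ N, IsNode C (μ u) → δ u = 0) ∧ ∀ u ∈ N, ∀ i, μ u = C.s i b → δ u = 0 := by
  classical
  -- the local statement
  have loc : ∀ u ∈ N, ∃ δ : ℂ → ℂ, AnalyticAt ℂ δ u ∧ ∀ᶠ v in 𝓝 u, Val C D μ v (δ v) := by
    intro u hu
    obtain ⟨U, x, y, t, hp, h, hx, hxy⟩ := hμ.exists_coord hch hu
    have hb := hμ.fib u hu
    have hxh := chart_hol_x h hp
    have hX := hμ.hol u hu x hxh
    have hT : Tendsto μ (𝓝 u) (𝓝[C.fib b] (μ u)) := by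
      rw [tendsto_nhdsWithin_iff]
      refine ⟨hμ.cont u hu, ?_⟩
      filter_upwards [hμ.op.mem_nhds hu] with v hv using hμ.fib v hv
    obtain ⟨k, hk, hke⟩ := (hD.1 _ hb x x hxh hxh).2.2.2
    have hka := hμ.hol u hu k hk
    have hdX : AnalyticAt ℂ (deriv fun u => x (μ u)) u := hX.deriv
    set δ : ℂ → ℂ := fun v => k (μ v) / deriv (fun u => x (μ u)) v with hδ
    have hδa : AnalyticAt ℂ δ u := hka.div hdX hx
    have hkv : ∀ᶠ v in 𝓝 u, D x (μ v) = k (μ v) := hT.eventually hke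
    have hdv : ∀ᶠ v in 𝓝 u, deriv (fun u => x (μ u)) v ≠ 0 := hdX.continuousAt.eventually_ne hx
    have hUv : ∀ᶠ v in 𝓝 u, μ v ∈ U := (hμ.cont u hu).eventually_mem (h.1.mem_nhds hp)
    have hNv : ∀ᶠ v in 𝓝 u, v ∈ N := hμ.op.mem_nhds hu
    by_cases hx0 : x (μ u) = 0
    · -- a node
      have hy0 : y (μ u) = 0 := hxy.resolve_left fun a => a hx0
      have hne : ∀ᶠ v in 𝓝[≠] u, x (μ v) ≠ 0 := by
        rcases hX.eventually_eq_zero_or_eventually_ne_zero with h1 | h1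
        · have h1' : (fun u => x (μ u)) =ᶠ[𝓝 u] fun _ => (0 : ℂ) := h1
          exact absurd (by rw [h1'.deriv_eq]; simp) hx
        · exact h1
      have hval : ∀ᶠ v in 𝓝[≠] u, Val C D μ v (δ v) := by
        filter_upwards [hne, hkv.filter_mono nhdsWithin_le_nhds,
          hdv.filter_mono nhdsWithin_le_nhds, hUv.filter_mono nhdsWithin_le_nhds,
          hNv.filter_mono nhdsWithin_le_nhds] with v a1 a2 a3 a4 a5
        have := val_smooth h hD hμ a5 a4 a1 a3
        rwa [a2] at this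
      have hk0 : k (μ u) = 0 := by
        rw [← hkv.self_of_nhds]
        exact field_node h hD hp hb hx0 hy0
      have hδ0 : δ u = 0 := by rw [hδ]; simp [hk0]
      refine ⟨δ, hδa, ?_⟩
      have hu0 : Val C D μ u (δ u) := by
        intro f hf
        rw [hδ0, mul_zero]
        obtain ⟨l, hl, hle⟩ := (hD.1 _ hb f f hf hf).2.2.2
        have hla := hμ.hol u hu l hl
        have hlv : ∀ᶠ v in 𝓝 u, D f (μ v) = l (μ v) := hT.eventually hle
        have hfa := hμ.hol u hu f hf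
        rw [hlv.self_of_nhds]
        -- `f` is holomorphic at the points near `μ u`
        have hfv : ∀ᶠ v in 𝓝 u, C.hol f (μ v) := by
          obtain ⟨g, hg, hge⟩ := (h.2.2.2.2 _ hp f).1 hf
          have h1 : ∀ᶠ q in 𝓝 (μ u), AnalyticAt ℂ g (C.π q, x q, y q) :=
            (chart_cont h hp).eventually hg.eventually_analyticAt
          have h2 : ∀ᶠ q in 𝓝 (μ u), ∀ᶠ r in 𝓝 q, f r = g (C.π r, x r, y r) :=
            hge.eventually_nhds
          have h3 : ∀ᶠ q in 𝓝 (μ u), C.hol f q := by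
            filter_upwards [h1, h2, h.1.mem_nhds hp] with q a1 a2 a3
            exact (h.2.2.2.2 q a3 f).2 ⟨g, a1, a2⟩
          exact (hμ.cont u hu).eventually h3
        have h1 : Tendsto (fun v => l (μ v)) (𝓝[≠] u) (𝓝 (l (μ u))) :=
          hla.continuousAt.tendsto.mono_left nhdsWithin_le_nhds
        have h2 : Tendsto (fun v => l (μ v)) (𝓝[≠] u) (𝓝 0) := by
          have h3 : Tendsto (fun v => deriv (fun u => f (μ u)) v * δ v) (𝓝[≠] u)
              (𝓝 (deriv (fun u => f (μ u)) u * δ u)) :=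
            (hfa.deriv.continuousAt.mul hδa.continuousAt).tendsto.mono_left nhdsWithin_le_nhds
          rw [hδ0, mul_zero] at h3
          refine h3.congr' ?_
          filter_upwards [hval, hlv.filter_mono nhdsWithin_le_nhds,
            hfv.filter_mono nhdsWithin_le_nhds] with v a1 a2 a3
          rw [← a2, a1 f a3]
        exact tendsto_nhds_unique h1 h2
      rw [eventually_nhdsWithin_iff] at hval
      filter_upwards [hval] with v hv
      by_cases hvu : v = u
      · rw [hvu]; exact hu0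
      · exact hv hvu
    · refine ⟨δ, hδa, ?_⟩
      filter_upwards [hX.continuousAt.eventually_ne hx0, hkv, hdv, hUv, hNv] with v a1 a2 a3 a4 a5
      have := val_smooth h hD hμ a5 a4 a1 a3
      rwa [a2] at this
  have hex : ∀ u ∈ N, ∃ δ, Val C D μ u δ := fun u hu => by
    obtain ⟨δ, -, h⟩ := loc u hu
    exact ⟨_, h.self_of_nhds⟩
  set δ : ℂ → ℂ := fun u => if h : ∃ δ, Val C D μ u δ then h.choose else 0 with hδ
  have hδv : ∀ u ∈ N, Val C D μ u (δ u) := by
    intro u hu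
    have := (hex u hu).choose_spec
    rw [hδ]
    simp only [hex u hu, dite_true]
    exact this
  refine ⟨δ, fun u hu => ?_, hδv, fun u hu hn => ?_, fun u hu i hi => ?_⟩
  · obtain ⟨δ', ha, he⟩ := loc u hu
    refine ha.congr ?_
    filter_upwards [he, hμ.op.mem_nhds hu] with v a1 a2
    exact Val.unique hch hμ a2 a1 (hδv v a2)
  · obtain ⟨U, x, y, t, hp, h, hx, hy⟩ := hn
    have h1 := field_node h hD hp (hμ.fib u hu) hx hy
    have h2 := field_node (chart_symm h) hD hp (hμ.fib u hu) hy hx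
    rw [hδv u hu x (chart_hol_x h hp)] at h1
    rw [hδv u hu y (chart_hol_y h hp)] at h2
    rcases hμ.coord h hu hp with ⟨h3, -⟩ | ⟨h3, -⟩
    · exact (mul_eq_zero.1 h1).resolve_left h3
    · exact (mul_eq_zero.1 h2).resolve_left h3
  · obtain ⟨U, x, y, t, hp, h, hx, -⟩ := hμ.exists_coord hch hu
    have h1 : D x (C.s i b) = 0 := hD.2.2 i x (hi ▸ chart_hol_x h hp)
    rw [← hi, hδv u hu x (chart_hol_x h hp)] at h1
    exact (mul_eq_zero.1 h1).resolve_left hx

end Field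

end Vale.Agent.P273.H599

end
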