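import Vale.Agent.P273.H395.NodeNorm
import Vale.Agent.P273.H507.Restr
import Vale.Agent.P273.H837.Strong

/-!
The value of a natural form on the family over a stratum, from a family of stable curves over a
larger base with the same normalisation data along the stratum.
-/

noncomputable section

open Set Filter Topology

namespace Vale.Agent.P273.H599

open Vale.Agent.P273.H395 Vale.Agent.P273.H183 Vale.Agent.P273.H837
open Vale.Agent.P273.H507 (IsRestr exists_restr)

variable {V E L : Type} {m m' : ℕ}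

/-! ### Change of the coordinates of the components -/

/-- The Moebius map of the adjugate matrix is the inverse. -/
theorem mob_adj {M : Matrix (Fin 2) (Fin 2) ℂ} (hM : M.det ≠ 0) (z : OnePoint ℂ) :
    mob M.adjugate (mob M z) = z := by
  have hM' : M.adjugate.det ≠ 0 := by
    rw [Matrix.det_adjugate]
    exact pow_ne_zero _ hM
  rw [mob_mob hM' hM, Matrix.adjugate_mul]
  unfold mob
  have e : act (M.det • (1 : Matrix (Fin 2) (Fin 2) ℂ)) (lft z) =
      (M.det * (lft z).1, M.det * (lft z).2) := by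
    simp [act]
  rw [e, proj_smul hM, proj_lft]

/-- **Change of the coordinates of the components** in normalisation data. -/
theorem norm_mob {C : Fam L m} {U : Set (Fin m' → ℂ)} {φ : (Fin m' → ℂ) → Fin m → ℂ}
    {h : (E × Bool) ⊕ L → V} {z z' : (E × Bool) ⊕ L → (Fin m' → ℂ) → OnePoint ℂ}
    {g : V → OnePoint ℂ → (Fin m' → ℂ) → C.X} (hN : Norm C U φ h z g) (hU : IsOpen U)
    {A : V → (Fin m' → ℂ) → Matrix (Fin 2) (Fin 2) ℂ}
    (hA : ∀ b ∈ U, ∀ v i j, AnalyticAt ℂ (fun b => A v b i j) b)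
    (hdet : ∀ b ∈ U, ∀ v, (A v b).det ≠ 0)
    (hz : ∀ b ∈ U, ∀ y, z' y b = mob (A (h y) b) (z y b)) :
    Norm C U φ h z' (fun v w b => g v (mob (A v b).adjugate w) b) := by
  have hdet' : ∀ b ∈ U, ∀ v, (A v b).adjugate.det ≠ 0 := by
    intro b hb v
    rw [Matrix.det_adjugate]
    exact pow_ne_zero _ (hdet b hb v)
  have hA' : ∀ b ∈ U, ∀ v i j, AnalyticAt ℂ (fun b => (A v b).adjugate i j) b := by
    intro b hb v i j
    simp only [Matrix.adjugate_fin_two]
    fin_cases i <;> fin_cases j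
    · exact hA b hb v 1 1
    · exact (hA b hb v 0 1).neg
    · exact (hA b hb v 1 0).neg
    · exact hA b hb v 0 0
  have hz' : ∀ b ∈ U, ∀ y, mob (A (h y) b).adjugate (z' y b) = z y b := by
    intro b hb y
    rw [hz b hb y, mob_adj (hdet b hb _)]
  have hw : ∀ b ∈ U, ∀ y v w, v = h y → (mob (A v b).adjugate w = z y b ↔ w = z' y b) := by
    rintro b hb y v w rfl
    rw [← hz' b hb y]
    exact (mob_injective (hdet' b hb _)).eq_iff
  refine ⟨hN.an, hN.mem, fun v => ?_, fun b hb v w => hN.proj b hb v _, fun b hb p hp => ?_,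
    fun b hb v w v' w' => ?_, fun b hb v w f hf => ?_, fun b hb x => ?_⟩
  · exact cont_mob (Z := U) (g := g v) (φ := fun b => b) (A := fun b => (A v b).adjugate) hU
      (hN.cont v) (fun b _ => analyticAt_id) (fun b hb => hb)
      (fun b hb => hA' b hb v) (fun b hb => hdet' b hb v)
  · obtain ⟨v, w, e⟩ := hN.onto b hb p hp
    obtain ⟨w', rfl⟩ := mob_surjective (hdet' b hb v) w
    exact ⟨v, w', e⟩
  · rw [hN.ident b hb]
    refine or_congr ?_ (exists_congr fun e => exists_congr fun s => ?_)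
    · constructor
      · rintro ⟨rfl, h2⟩
        exact ⟨rfl, mob_injective (hdet' b hb v) h2⟩
      · rintro ⟨rfl, rfl⟩
        exact ⟨rfl, rfl⟩
    · constructor
      · rintro ⟨⟨h1, h2⟩, h3, h4⟩
        exact ⟨⟨h1, (hw b hb _ _ _ h1).1 h2⟩, h3, (hw b hb _ _ _ h3).1 h4⟩
      · rintro ⟨⟨h1, h2⟩, h3, h4⟩
        exact ⟨⟨h1, (hw b hb _ _ _ h1).2 h2⟩, h3, (hw b hb _ _ _ h3).2 h4⟩
  · exact hol_mob (f := fun w b => f (g v w b)) (φ := fun b => b)
      (A := fun b => (A v b).adjugate) hU (fun b _ => analyticAt_id)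
      (fun b hb => hA' b hb v) (fun b hb => hdet' b hb v) hb (hN.hol b hb v _ f hf)
  · rw [hN.mark b hb x, hz' b hb]

/-! ### Restriction of a family with strong normalisation data -/

/-- The normalisation of a restriction. -/
theorem norm_restr {C T : Fam L m} {D : Set (Fin m → ℂ)} {ι : T.X → C.X} (hι : IsRestr C D T ι)
    (hD : IsOpen D) {b₀ : Fin m → ℂ} (hb₀ : b₀ ∈ D) {B : Set (Fin m → ℂ)} (hDB : D ⊆ B)
    {h : (E × Bool) ⊕ L → V} {z : (E × Bool) ⊕ L → (Fin m → ℂ) → OnePoint ℂ}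
    {g : V → OnePoint ℂ → (Fin m → ℂ) → C.X} (hN : Norm C B id h z g) (hs : StrongHol C g) :
    ∃ g' : V → OnePoint ℂ → (Fin m → ℂ) → T.X, Norm T T.B id h z g' ∧ StrongHol T g' := by
  classical
  have hTB := hι.B
  obtain ⟨p₀, hp₀⟩ := ((hι.stable.2.2.2.2.2 b₀ (hTB ▸ hb₀)).1).nonempty
  have : Nonempty T.X := ⟨p₀⟩
  have hinj := hι.emb.injective
  have hπT : ∀ x, T.π x ∈ D := fun x => hTB ▸ hι.stable.2.2.1 x
  set g' : V → OnePoint ℂ → (Fin m → ℂ) → T.X := fun v w b => Function.invFun ι (g v w b) with hg'd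
  have hg' : ∀ b ∈ D, ∀ v w, ι (g' v w b) = g v w b := by
    intro b hb v w
    refine Function.invFun_eq (hι.ex _ ?_)
    rw [hN.proj b (hDB hb) v w]
    exact hb
  have hDe : ∀ (w : OnePoint ℂ) (b : Fin m → ℂ), b ∈ D →
      ∀ᶠ u : OnePoint ℂ × (Fin m → ℂ) in 𝓝 (w, b), u.2 ∈ D := fun w b hb =>
    continuousAt_snd.eventually (hD.mem_nhds hb)
  have hcont : ∀ v, ContinuousOn (fun u : OnePoint ℂ × (Fin m → ℂ) => g' v u.1 u.2)
      (univ ×ˢ D) := by
    intro v
    rw [hι.emb.isInducing.continuousOn_iff]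
    refine ((hN.cont v).mono (prod_mono Subset.rfl hDB)).congr ?_
    intro u hu
    exact hg' u.2 hu.2 v u.1
  refine ⟨g', ?_, ?_⟩
  · rw [hTB]
    refine ⟨fun b _ => analyticAt_id, fun b hb => hTB ▸ hb, hcont, ?_, ?_, ?_, ?_, ?_⟩
    · intro b hb v w
      rw [← hι.π, hg' b hb, hN.proj b (hDB hb)]
    · intro b hb p hp
      have hp' : C.π (ι p) = b := (hι.π p).trans hp
      obtain ⟨v, w, e⟩ := hN.onto b (hDB hb) (ι p) hp'
      exact ⟨v, w, hinj (by rw [hg' b hb, e])⟩
    · intro b hb v w v' w'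
      rw [← hN.ident b (hDB hb) v w v' w', ← hg' b hb v w, ← hg' b hb v' w']
      exact hinj.eq_iff.symm
    · intro b hb v w f hf
      obtain ⟨f', hf', e⟩ := (hι.hol _ _).1 hf
      rw [hg' b hb] at hf'
      refine hol1_congr (hN.hol b (hDB hb) v w f' hf') ?_
      have hc : ContinuousAt (fun u : OnePoint ℂ × (Fin m → ℂ) => g' v u.1 u.2) (w, b) :=
        (hcont v (w, b) ⟨mem_univ _, hb⟩).continuousAt
          ((isOpen_univ.prod hD).mem_nhds ⟨mem_univ _, hb⟩)
      filter_upwards [hDe w b hb, hc.eventually e] with u hu1 hu2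
      rw [hu2, Function.comp_apply, hg' u.2 hu1]
    · intro b hb x
      refine hinj ?_
      change ι (T.s x b) = _
      rw [hι.s x b hb, hg' b hb]
      exact hN.mark b (hDB hb) x
  · intro p F hF
    rw [hι.hol]
    refine ⟨Function.extend ι F 0, hs _ _ fun v w e => ?_, ?_⟩
    · rw [hι.π] at e ⊢
      have e' : g' v w (T.π p) = p := hinj (by rw [hg' _ (hπT p), e])
      refine hol1_congr (hF v w e') ?_
      filter_upwards [hDe w _ (hπT p)] with u hu
      rw [← hg' u.2 hu, hinj.extend_apply]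
    · refine Eventually.of_forall fun x => ?_
      rw [Function.comp_apply, hinj.extend_apply]

/-- **The link.** `C` is the family over the moduli space of the graph `h` in the coordinates `c`,
`C'` a family of stable curves with normalisation data of the graph `h` along `φ`, over an open part
`U` of the moduli space, in other coordinates on the components. -/
theorem link [Finite V] [Finite E] [Finite L] {h : (E × Bool) ⊕ L → V} {c : Coord h m}
    (hl : ∀ y : E × Bool, h (Sum.inl (H768.fl y)) ≠ h (Sum.inl y)) {C : Fam L m}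
    (hCs : C.IsStable) (hC : c.IsGlued C) {U : Set (Fin m → ℂ)} (hU : IsOpen U)
    (hUb : U ⊆ c.base) {φ : (Fin m → ℂ) → Fin m' → ℂ} {C' : Fam L m'} (hCs' : C'.IsStable)
    {z : (E × Bool) ⊕ L → (Fin m → ℂ) → OnePoint ℂ}
    {g' : V → OnePoint ℂ → (Fin m → ℂ) → C'.X} (hN : Norm C' U φ h z g')
    {A : V → (Fin m → ℂ) → Matrix (Fin 2) (Fin 2) ℂ}
    (hA : ∀ b ∈ U, ∀ v i j, AnalyticAt ℂ (fun b => A v b i j) b)
    (hdet : ∀ b ∈ U, ∀ v, (A v b).det ≠ 0)
    (hz : ∀ b ∈ U, ∀ y, pt b (c.c y) = mob (A (h y) b) (z y b)) {k : ℕ}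
    {F : ∀ m, Fam L m → (Fin m → ℂ) → (Fin m → ℂ) [⋀^Fin k]→L[ℝ] ℝ} (hF : IsClosedForm L k F)
    {b : Fin m → ℂ} (hb : b ∈ U) :
    F m C b = (F m' C' (φ b)).compContinuousLinearMap (fderiv ℝ φ b) := by
  obtain ⟨T, gT, hTs, hTB, hTn, hTh⟩ := hasStrong c hl hCs hC
  obtain ⟨g, hg⟩ := Norm.of_isGlued hC
  have hUT : U ⊆ T.B := by rw [hTB]; exact hUb
  have hbT : b ∈ T.B := hUT hb
  obtain ⟨T', ι, hι⟩ := exists_restr hTs hU hUT ⟨b, hb⟩
  obtain ⟨gT', h1, h2⟩ := norm_restr hι hU hb hUb hTn hTh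
  have hb' : b ∈ T'.B := hι.B ▸ hb
  have h3 := norm_mob hN hU hA hdet hz
  have h4 := eq_pullback hι.stable hCs' h1
    (hι.B.symm ▸ h3 : Norm C' T'.B φ h (fun y b => pt b (c.c y)) _) h2 hF b hb'
  have h5 := hι.F_eq hUT hTs hF hb
  have h6 := eq_pullback (m := m) (m' := m) hTs hCs
    (hTB.symm ▸ hTn : Norm T T.B id h (fun y b => pt b (c.c y)) gT)
    (hTB.symm ▸ hg : Norm C T.B id h (fun y b => pt b (c.c y)) g) hTh hF b hbT
  rw [← h4, h5, h6, fderiv_id]
  ext x
  rfl

end Vale.Agent.P273.H599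

end
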