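import Mathlib

/-!
Two Liouville lemmas used for the stability of explicit nodal curves (P273): vector fields on the
projective line with three zeros, and the odd/even trick on a double cover of the line.
-/

noncomputable section

namespace Vale.Agent.P273.H599

open Set Filter Topology Complex

/-- Removable singularities, finitely many points at once. -/
theorem exists_entire {d : ℂ → ℂ} {S : Set ℂ} (hS : S.Finite) (hd : DifferentiableOn ℂ d Sᶜ)
    (hb : ∀ s ∈ S, ∃ C, ∀ᶠ z in 𝓝[≠] s, ‖d z‖ ≤ C) :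
    ∃ D : ℂ → ℂ, Differentiable ℂ D ∧ ∀ z ∉ S, D z = d z := by
  have hSo : IsOpen Sᶜ := hS.isClosed.isOpen_compl
  have hlim : ∀ z ∉ S, limUnder (𝓝[≠] z) d = d z := fun z hz =>
    ((hd.differentiableAt (hSo.mem_nhds hz)).continuousAt.tendsto.mono_left
      nhdsWithin_le_nhds).limUnder_eq
  refine ⟨fun z => limUnder (𝓝[≠] z) d, fun z => ?_, hlim⟩
  by_cases hz : z ∈ S
  · obtain ⟨C, hC⟩ := hb z hz
    have h1 : ∀ᶠ w in 𝓝[≠] z, w ∈ Sᶜ := by
      have : IsOpen (S \ {z})ᶜ := (hS.subset sdiff_subset).isClosed.isOpen_compl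
      have h2 : ∀ᶠ w in 𝓝 z, w ∈ (S \ {z})ᶜ := this.mem_nhds (by simp)
      filter_upwards [h2.filter_mono nhdsWithin_le_nhds, self_mem_nhdsWithin] with w hw hw'
      intro hwS
      exact hw ⟨hwS, hw'⟩
    obtain ⟨U, hU, hUo, hzU⟩ : ∃ U : Set ℂ, (∀ w ∈ U, w ≠ z → w ∈ Sᶜ ∧ ‖d w‖ ≤ C) ∧ IsOpen U ∧
        z ∈ U := by
      have := (h1.and hC)
      rw [eventually_nhdsWithin_iff, eventually_nhds_iff] at this
      obtain ⟨U, h1, h2, h3⟩ := this
      exact ⟨U, fun w hw hne => h1 w hw hne, h2, h3⟩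
    have hdU : DifferentiableOn ℂ d (U \ {z}) := hd.mono fun w hw => (hU w hw.1 hw.2).1
    have key := Complex.differentiableOn_update_limUnder_of_bddAbove (hUo.mem_nhds hzU) hdU
      ⟨C, by rintro _ ⟨w, hw, rfl⟩; exact (hU w hw.1 hw.2).2⟩
    have key2 := key.differentiableAt (hUo.mem_nhds hzU)
    refine key2.congr_of_eventuallyEq ?_
    filter_upwards [hUo.mem_nhds hzU] with w hw
    by_cases hwz : w = z
    · subst hwz; simp
    · rw [Function.update_of_ne hwz]
      exact hlim w (hU w hw hwz).1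
  · refine (hd.differentiableAt (hSo.mem_nhds hz)).congr_of_eventuallyEq ?_
    filter_upwards [hSo.mem_nhds hz] with w hw using hlim w hw

/-- Liouville: a bounded-to-zero function with removable singularities vanishes. -/
theorem zero_of_tendsto {d : ℂ → ℂ} {S : Set ℂ} (hS : S.Finite) (hd : DifferentiableOn ℂ d Sᶜ)
    (hb : ∀ s ∈ S, ∃ C, ∀ᶠ z in 𝓝[≠] s, ‖d z‖ ≤ C) (h0 : Tendsto d (cocompact ℂ) (𝓝 0)) :
    ∀ z ∉ S, d z = 0 := by
  obtain ⟨D, hD, hDd⟩ := exists_entire hS hd hb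
  have h1 : D =ᶠ[cocompact ℂ] d := by
    filter_upwards [hS.isCompact.compl_mem_cocompact] with z hz using hDd z hz
  have h2 : Tendsto D (cocompact ℂ) (𝓝 0) := (tendsto_congr' h1).2 h0
  intro z hz
  rw [← hDd z hz]
  exact hD.apply_eq_of_tendsto_cocompact z h2

/-- The values at a point of the projective line of a vector field `d(z) ∂/∂z`: it vanishes at
`w`. -/
def VanAt (d : ℂ → ℂ) : OnePoint ℂ → Prop
  | none => Tendsto (fun z => d z / z ^ 2) (cocompact ℂ) (𝓝 0)
  | some a => Tendsto d (𝓝[≠] a) (𝓝 0)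

theorem isBigO_dslope {D : ℂ → ℂ} {a : ℂ} (ha : D a = 0) :
    ∀ᶠ z in cocompact ℂ, dslope D a z = D z / (z - a) := by
  filter_upwards [(isCompact_singleton (x := a)).compl_mem_cocompact] with z hz
  rw [dslope_of_ne _ hz, slope_def_field, ha, sub_zero]

theorem tendsto_sub_div (a : ℂ) : Tendsto (fun z : ℂ => z / (z - a)) (cocompact ℂ) (𝓝 1) := by
  have h1 : Tendsto (fun z : ℂ => a * (z - a)⁻¹) (cocompact ℂ) (𝓝 (a * 0)) := by
    refine Tendsto.const_mul a ?_
    refine (tendsto_inv₀_cobounded (α := ℂ)).comp ?_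
    rw [Metric.cobounded_eq_cocompact]
    exact (Homeomorph.subRight a).isClosedEmbedding.tendsto_cocompact
  rw [mul_zero] at h1
  have h2 : Tendsto (fun z : ℂ => 1 + a * (z - a)⁻¹) (cocompact ℂ) (𝓝 (1 + 0)) :=
    tendsto_const_nhds.add h1
  rw [add_zero] at h2
  refine h2.congr' ?_
  filter_upwards [(isCompact_singleton (x := a)).compl_mem_cocompact] with z hz
  have : z - a ≠ 0 := sub_ne_zero.2 hz
  field_simp
  ring

/-- An entire function `o(z^2)` with two zeros vanishes. -/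
theorem entire_two {D : ℂ → ℂ} (hD : Differentiable ℂ D) {a b : ℂ} (hab : a ≠ b) (ha : D a = 0)
    (hb : D b = 0) (h : Tendsto (fun z => D z / z ^ 2) (cocompact ℂ) (𝓝 0)) (z : ℂ) : D z = 0 := by
  set D1 := dslope D a with hD1
  have hD1d : Differentiable ℂ D1 := by
    intro z
    exact (differentiableOn_dslope (s := univ) univ_mem |>.2 hD.differentiableOn).differentiableAt
      univ_mem
  have hD1b : D1 b = 0 := by
    rw [hD1, dslope_of_ne _ hab.symm, slope_def_field, ha, hb]; simp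
  set D2 := dslope D1 b with hD2
  have hD2d : Differentiable ℂ D2 := by
    intro z
    exact (differentiableOn_dslope (s := univ) univ_mem |>.2 hD1d.differentiableOn).differentiableAt
      univ_mem
  have h2 : Tendsto D2 (cocompact ℂ) (𝓝 0) := by
    have h3 : Tendsto (fun z => D z / z ^ 2 * (z / (z - a)) * (z / (z - b))) (cocompact ℂ)
        (𝓝 (0 * 1 * 1)) := (h.mul (tendsto_sub_div a)).mul (tendsto_sub_div b)
    simp only [zero_mul] at h3
    refine h3.congr' ?_
    filter_upwards [isBigO_dslope ha, isBigO_dslope hD1b,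
      (isCompact_singleton (x := (0 : ℂ))).compl_mem_cocompact,
      (isCompact_singleton (x := a)).compl_mem_cocompact,
      (isCompact_singleton (x := b)).compl_mem_cocompact] with z h4 h5 h6 h7 h8
    rw [hD2, h5, hD1, h4]
    have e1 : z ≠ 0 := h6
    have e2 : z - a ≠ 0 := sub_ne_zero.2 h7
    have e3 : z - b ≠ 0 := sub_ne_zero.2 h8
    field_simp
  have h4 : ∀ z, D2 z = 0 := fun z => hD2d.apply_eq_of_tendsto_cocompact z h2
  have h5 : ∀ z, D1 z = 0 := by
    intro z
    by_cases hz : z = b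
    · rw [hz, hD1b]
    · have := h4 z
      rw [hD2, dslope_of_ne _ hz, slope_def_field, hD1b, sub_zero, div_eq_zero_iff] at this
      exact this.resolve_right (sub_ne_zero.2 hz)
  by_cases hz : z = a
  · rw [hz, ha]
  · have := h5 z
    rw [hD1, dslope_of_ne _ hz, slope_def_field, ha, sub_zero, div_eq_zero_iff] at this
    exact this.resolve_right (sub_ne_zero.2 hz)

/-- An entire function `O(z^2)` with three zeros vanishes. -/
theorem entire_three {D : ℂ → ℂ} (hD : Differentiable ℂ D) {a b c : ℂ} (hab : a ≠ b) (hac : a ≠ c)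
    (hbc : b ≠ c) (ha : D a = 0) (hb : D b = 0) (hc : D c = 0) {C : ℝ}
    (h : ∀ᶠ z in cocompact ℂ, ‖D z / z ^ 2‖ ≤ C) (z : ℂ) : D z = 0 := by
  set D1 := dslope D c with hD1
  have hD1d : Differentiable ℂ D1 := by
    intro z
    exact (differentiableOn_dslope (s := univ) univ_mem |>.2 hD.differentiableOn).differentiableAt
      univ_mem
  have hD1a : D1 a = 0 := by
    rw [hD1, dslope_of_ne _ hac, slope_def_field, ha, hc]; simp
  have hD1b : D1 b = 0 := by
    rw [hD1, dslope_of_ne _ hbc, slope_def_field, hb, hc]; simp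
  have h1 : Tendsto (fun z => D1 z / z ^ 2) (cocompact ℂ) (𝓝 0) := by
    have hinv : Tendsto (fun z : ℂ => (z - c)⁻¹) (cocompact ℂ) (𝓝 0) := by
      refine (tendsto_inv₀_cobounded (α := ℂ)).comp ?_
      rw [Metric.cobounded_eq_cocompact]
      exact (Homeomorph.subRight c).isClosedEmbedding.tendsto_cocompact
    have h2 : Tendsto (fun z => (z - c)⁻¹ * (D z / z ^ 2)) (cocompact ℂ) (𝓝 0) := by
      refine hinv.zero_mul_isBoundedUnder_le ?_
      exact ⟨C, by simpa [Filter.eventually_map] using h⟩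
    refine h2.congr' ?_
    filter_upwards [isBigO_dslope hc] with z h4
    rw [hD1, h4, div_eq_mul_inv (D z) (z - c)]
    ring
  have h5 := entire_two hD1d hab hD1a hD1b h1
  by_cases hz : z = c
  · rw [hz, hc]
  · have := h5 z
    rw [hD1, dslope_of_ne _ hz, slope_def_field, hc, sub_zero, div_eq_zero_iff] at this
    exact this.resolve_right (sub_ne_zero.2 hz)

/-- **Vector fields on the projective line.** A holomorphic vector field on the complement of a
finite set, bounded near all points and at infinity, with three zeros, is zero. -/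
theorem p1_zero {d : ℂ → ℂ} {S : Set ℂ} (hS : S.Finite) (hd : DifferentiableOn ℂ d Sᶜ)
    (hb : ∀ s ∈ S, ∃ C, ∀ᶠ z in 𝓝[≠] s, ‖d z‖ ≤ C)
    {C : ℝ} (hinf : ∀ᶠ z in cocompact ℂ, ‖d z / z ^ 2‖ ≤ C)
    (w : Fin 3 → OnePoint ℂ) (hw : Function.Injective w) (hv : ∀ i, VanAt d (w i)) :
    ∀ z ∉ S, d z = 0 := by
  obtain ⟨D, hD, hDd⟩ := exists_entire hS hd hb
  have h1 : ∀ᶠ z in cocompact ℂ, D z = d z := by
    filter_upwards [hS.isCompact.compl_mem_cocompact] with z hz using hDd z hz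
  have h1' : ∀ a, ∀ᶠ z in 𝓝[≠] a, D z = d z := by
    intro a
    have : IsOpen (S \ {a})ᶜ := (hS.subset sdiff_subset).isClosed.isOpen_compl
    have h2 : ∀ᶠ w in 𝓝 a, w ∈ (S \ {a})ᶜ := this.mem_nhds (by simp)
    filter_upwards [h2.filter_mono nhdsWithin_le_nhds, self_mem_nhdsWithin] with w hw hw'
    exact hDd w fun hwS => hw ⟨hwS, hw'⟩
  have hfin : ∀ a : ℂ, VanAt d (a : OnePoint ℂ) → D a = 0 := by
    intro a ha
    have h2 : Tendsto D (𝓝[≠] a) (𝓝 0) := (tendsto_congr' (h1' a)).2 ha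
    exact tendsto_nhds_unique ((hD a).continuousAt.tendsto.mono_left nhdsWithin_le_nhds) h2
  have hgr : ∀ᶠ z in cocompact ℂ, ‖D z / z ^ 2‖ ≤ C := by
    filter_upwards [h1, hinf] with z h2 h3
    rwa [h2]
  have hI : VanAt d OnePoint.infty → Tendsto (fun z => D z / z ^ 2) (cocompact ℂ) (𝓝 0) := by
    intro h
    refine Tendsto.congr' ?_ h
    filter_upwards [h1] with z h2
    rw [h2]
  have main : ∀ z, D z = 0 := by
    by_cases hex : ∃ i, w i = OnePoint.infty
    · obtain ⟨i, hi⟩ := hex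
      have hinf' := hI (hi ▸ hv i)
      obtain ⟨j, k, hij, hik, hjk⟩ : ∃ j k : Fin 3, i ≠ j ∧ i ≠ k ∧ j ≠ k := by
        fin_cases i
        · exact ⟨1, 2, by decide, by decide, by decide⟩
        · exact ⟨0, 2, by decide, by decide, by decide⟩
        · exact ⟨0, 1, by decide, by decide, by decide⟩
      have hj : w j ≠ OnePoint.infty := fun h => hij (hw (hi.trans h.symm))
      have hk : w k ≠ OnePoint.infty := fun h => hik (hw (hi.trans h.symm))
      obtain ⟨a, ha⟩ := OnePoint.ne_infty_iff_exists.1 hj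
      obtain ⟨b, hb'⟩ := OnePoint.ne_infty_iff_exists.1 hk
      refine entire_two hD (a := a) (b := b) ?_ (hfin a (ha ▸ hv j)) (hfin b (hb' ▸ hv k)) hinf'
      rintro rfl
      exact hjk (hw (ha.symm.trans hb'))
    · push Not at hex
      obtain ⟨a, ha⟩ := OnePoint.ne_infty_iff_exists.1 (hex 0)
      obtain ⟨b, hb'⟩ := OnePoint.ne_infty_iff_exists.1 (hex 1)
      obtain ⟨c, hc'⟩ := OnePoint.ne_infty_iff_exists.1 (hex 2)
      refine entire_three hD (a := a) (b := b) (c := c) ?_ ?_ ?_ (hfin a (ha ▸ hv 0))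
        (hfin b (hb' ▸ hv 1)) (hfin c (hc' ▸ hv 2)) hgr
      · rintro rfl
        exact absurd (hw (ha.symm.trans hb')) (by decide)
      · rintro rfl
        exact absurd (hw (ha.symm.trans hc')) (by decide)
      · rintro rfl
        exact absurd (hw (hb'.symm.trans hc')) (by decide)
  intro z hz
  rw [← hDd z hz]
  exact main z

/-- A local holomorphic square root. -/
theorem exists_root {f : ℂ → ℂ} (hf : Differentiable ℂ f) {x₀ y₀ : ℂ} (h : y₀ ^ 2 = f x₀)
    (h0 : y₀ ≠ 0) : ∃ η : ℂ → ℂ, η x₀ = y₀ ∧ (∀ᶠ x in 𝓝 x₀, DifferentiableAt ℂ η x) ∧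
      ∀ᶠ x in 𝓝 x₀, η x ^ 2 = f x := by
  have hf0 : f x₀ ≠ 0 := by rw [← h]; exact pow_ne_zero 2 h0
  refine ⟨fun x => y₀ * (f x / f x₀) ^ (1 / 2 : ℂ), by simp [div_self hf0], ?_, ?_⟩
  · have h1 : ∀ᶠ x in 𝓝 x₀, f x / f x₀ ∈ slitPlane := by
      have : ContinuousAt (fun x => f x / f x₀) x₀ := (hf x₀).continuousAt.div_const _
      refine this.eventually_mem (isOpen_slitPlane.mem_nhds ?_)
      rw [div_self hf0]; exact one_mem_slitPlane
    filter_upwards [h1] with x hx
    exact (((hf x).div_const _).cpow_const hx).const_mul _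
  · refine Eventually.of_forall fun x => ?_
    simp only
    rw [mul_pow, ← Complex.cpow_nat_mul, h]
    norm_num
    field_simp

/-- **The double cover.** A function on `{y ^ 2 = f x}` that is holomorphic off finitely many
fibres, bounded near them, and tends to zero at infinity, vanishes. -/
theorem double_zero {f : ℂ → ℂ} (hf : Differentiable ℂ f) {S : Set ℂ} (hS : S.Finite)
    (hSf : ∀ x, f x = 0 → x ∈ S) {h : ℂ → ℂ → ℂ}
    (hol : ∀ x₀ ∉ S, ∀ η : ℂ → ℂ, (∀ᶠ x in 𝓝 x₀, DifferentiableAt ℂ η x) →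
      (∀ᶠ x in 𝓝 x₀, η x ^ 2 = f x) → DifferentiableAt ℂ (fun x => h x (η x)) x₀)
    (hb : ∀ s ∈ S, ∃ C, ∀ᶠ x in 𝓝[≠] s, ∀ y, y ^ 2 = f x → ‖h x y‖ ≤ C)
    (hinf : ∀ ε > 0, ∀ᶠ x in cocompact ℂ, ∀ y, y ^ 2 = f x → ‖h x y‖ ≤ ε) :
    ∀ x ∉ S, ∀ y, y ^ 2 = f x → h x y = 0 := by
  -- a root at each point
  set r : ℂ → ℂ := fun x => (f x) ^ (1 / 2 : ℂ) with hr
  have hr2 : ∀ x, r x ^ 2 = f x := by
    intro x
    rw [hr]
    simp only
    rw [← Complex.cpow_nat_mul]
    norm_num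
  have hr2' : ∀ x, (-r x) ^ 2 = f x := fun x => by rw [neg_sq, hr2]
  have hroot : ∀ x y, y ^ 2 = f x → y = r x ∨ y = -r x := by
    intro x y hy
    rw [← hr2 x] at hy
    exact sq_eq_sq_iff_eq_or_eq_neg.1 hy
  have loc : ∀ x₀ ∉ S, ∃ η : ℂ → ℂ, (∀ᶠ x in 𝓝 x₀, DifferentiableAt ℂ η x) ∧
      (∀ᶠ x in 𝓝 x₀, η x ^ 2 = f x) := by
    intro x₀ hx₀
    have hf0 : f x₀ ≠ 0 := fun h => hx₀ (hSf x₀ h)
    have hr0 : r x₀ ≠ 0 := by
      intro h; apply hf0; rw [← hr2 x₀, h]; simp
    obtain ⟨η, -, h1, h2⟩ := exists_root hf (hr2 x₀) hr0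
    exact ⟨η, h1, h2⟩
  -- the symmetric functions
  have hT : ∀ x ∉ S, h x (r x) + h x (-r x) = 0 := by
    refine zero_of_tendsto hS (fun x₀ hx₀ => ?_) (fun s hs => ?_) ?_
    · obtain ⟨η, h1, h2⟩ := loc x₀ hx₀
      have h3 := (hol x₀ hx₀ η h1 h2).add (hol x₀ hx₀ (fun x => -η x)
        (h1.mono fun x hx => hx.neg) (h2.mono fun x hx => by rw [neg_sq, hx]))
      refine (h3.congr_of_eventuallyEq ?_).differentiableWithinAt
      filter_upwards [h2] with x hx
      rcases hroot x _ hx with h4 | h4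
      · simp [h4]
      · simp [h4, add_comm]
    · obtain ⟨C, hC⟩ := hb s hs
      refine ⟨C + C, hC.mono fun x hx => (norm_add_le _ _).trans ?_⟩
      exact add_le_add (hx _ (hr2 x)) (hx _ (hr2' x))
    · rw [Metric.tendsto_nhds]
      intro ε hε
      filter_upwards [hinf (ε / 3) (by positivity)] with x hx
      rw [dist_zero_right]
      calc ‖h x (r x) + h x (-r x)‖ ≤ ‖h x (r x)‖ + ‖h x (-r x)‖ := norm_add_le _ _
        _ ≤ ε / 3 + ε / 3 := add_le_add (hx _ (hr2 x)) (hx _ (hr2' x))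
        _ < ε := by linarith
  have hN : ∀ x ∉ S, h x (r x) * h x (-r x) = 0 := by
    refine zero_of_tendsto hS (fun x₀ hx₀ => ?_) (fun s hs => ?_) ?_
    · obtain ⟨η, h1, h2⟩ := loc x₀ hx₀
      have h3 := (hol x₀ hx₀ η h1 h2).mul (hol x₀ hx₀ (fun x => -η x)
        (h1.mono fun x hx => hx.neg) (h2.mono fun x hx => by rw [neg_sq, hx]))
      refine (h3.congr_of_eventuallyEq ?_).differentiableWithinAt
      filter_upwards [h2] with x hx
      rcases hroot x _ hx with h4 | h4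
      · simp [h4]
      · simp [h4, mul_comm]
    · obtain ⟨C, hC⟩ := hb s hs
      refine ⟨C * C, hC.mono fun x hx => ?_⟩
      rw [norm_mul]
      have h5 := hx _ (hr2 x)
      exact mul_le_mul h5 (hx _ (hr2' x)) (norm_nonneg _) ((norm_nonneg _).trans h5)
    · rw [Metric.tendsto_nhds]
      intro ε hε
      filter_upwards [hinf 1 one_pos, hinf (ε / 2) (by positivity)] with x hx hx'
      rw [dist_zero_right, norm_mul]
      calc ‖h x (r x)‖ * ‖h x (-r x)‖ ≤ 1 * (ε / 2) :=
            mul_le_mul (hx _ (hr2 x)) (hx' _ (hr2' x)) (norm_nonneg _) zero_le_one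
        _ < ε := by linarith
  intro x hx y hy
  have h1 := hT x hx
  have h2 := hN x hx
  have h3 : h x (-r x) = -h x (r x) := by linear_combination h1
  have h4 : h x (r x) = 0 := by
    rw [h3] at h2
    have : h x (r x) ^ 2 = 0 := by linear_combination -h2
    exact pow_eq_zero_iff (two_ne_zero) |>.1 this
  rcases hroot x y hy with h5 | h5
  · rw [h5, h4]
  · rw [h5, h3, h4, neg_zero]

end Vale.Agent.P273.H599

end
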