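import Vale.Agent.P273.H599.NkB
import Vale.Agent.P273.H225.NkC
import Vale.Agent.P273.H379.BaseA

/-!
# P273, row 4 (helper599): the neck bounds of the one mark gauge, without hypotheses
-/

namespace Vale.Agent.P273.H599

/-- **The neck bounds of the one mark gauge.** -/
theorem neckO : H730.NeckO H580.theOne :=
  H225.neckO_of H580.theFlatFam NkB.neckF H379.baseA

end Vale.Agent.P273.H599
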