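import Vale.Agent.P273.H401.NkFam
import Vale.Agent.P273.H339.Node2
import Vale.Agent.P273.H996.NeckEst
import Vale.Agent.P273.H595.NeckEul
import Vale.Agent.P273.H225.NkDef
import Vale.Agent.P273.H580.The

/-!
# P273, row 4 (helper599, pair of 401): the flat neck bounds

`neckF : NeckF theFlatFam` from 401's family over the neck coordinates, 339's node form, 598's
explicit solution, 931's regular part, 996's estimates and 595's Euler half.
-/

noncomputable section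

namespace Vale.Agent.P273.H599.NkB

open Set Filter Metric Complex
open scoped Topology Real ContDiff
open H681 (C6 XX)
open H95 (IsCl)
open H973 (On1)
open H730 (bd xn nv yl Adm InNeck alc)
open H339 (En dn Xn Yn)
open H598 (NB NB2 bb DN c0 P0 HH lg)
open H580 (fl AX XO theFlatFam)
open H598.Sol.Dat (Bds)
open H401.Nk

variable {k : Fin 5} {q₀ : C6} {V : Set C6} {ρ A r : ℝ}

/-- the local solution near a point -/
theorem exists_pt (hok : (DN k ρ).Ok ((0 : ℂ), q₀))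
    (hB : ∀ d q, ‖d‖ < r → q ∈ ball q₀ r → Bds hok A (d, q))
    (hE : ∀ d q, ‖d‖ < r → q ∈ ball q₀ r → bb k (d, q) ∈ XO → 2 * A ≤ -Real.log ‖d‖ →
      ∀ ξ, IsCl ξ → fl ξ (bb k (d, q)) =
        H598.Sol.Dat.vs hok (d, q) (-Real.log ‖d‖) (lg (-d)).im ξ ∧
      H598.Sol.dot (fl ξ (bb k (d, q))) ((DN k ρ).c (d, q)) =
        H598.Sol.Dat.xs hok (d, q) (-Real.log ‖d‖) (lg (-d)).im ξ +
          (((ξ k.succ - ξ k.castSucc) / π : ℝ) : ℂ) * I)
    {p : En} (h1 : ‖dn p‖ < r) (h2 : p.1.1 ∈ ball q₀ r) (h3 : bb k (dn p, p.1.1) ∈ XO)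
    (h4 : 2 * A < -Real.log ‖dn p‖) : Pt k ρ q₀ hok A p := by
  have cd : ContinuousAt dn p := (hasFDerivAt_dn p).continuousAt
  have cq : ContinuousAt (fun w : En => w.1.1) p := (continuous_fst.comp continuous_fst).continuousAt
  refine ⟨hB _ _ h1 h2, by rw [mE_eq]; exact h4.le, H598.neg_mem_Sl h3, ?_⟩
  have cb : ContinuousAt (fun w : En => bb k (dn w, w.1.1)) p := by
    have := ((H339.contDiff_bn k).continuous).continuousAt (x := p)
    exact this
  have cl : ContinuousAt (fun w : En => -Real.log ‖dn w‖) p := by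
    have e : (fun w : En => -Real.log ‖dn w‖) = mE := by
      funext w
      rw [mE_eq]
    rw [e]
    exact (hasFDerivAt_mE p).continuousAt
  have e1 : ∀ᶠ w : En in 𝓝 p, ‖dn w‖ < r := cd.norm.eventually_lt_const h1
  have e2 : ∀ᶠ w : En in 𝓝 p, w.1.1 ∈ ball q₀ r := cq.eventually_mem (isOpen_ball.mem_nhds h2)
  have e3 : ∀ᶠ w : En in 𝓝 p, bb k (dn w, w.1.1) ∈ XO :=
    cb.eventually_mem (H580.isOpen_XO.mem_nhds h3)
  have e4 : ∀ᶠ w : En in 𝓝 p, 2 * A < -Real.log ‖dn w‖ := cl.eventually_const_lt h4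
  filter_upwards [e1, e2, e3, e4] with w a1 a2 a3 a4 ξ hξ
  exact hE _ _ a1 a2 a3 a4.le ξ hξ

theorem neckF : H225.NeckF theFlatFam := by
  intro k q₀ hq₀
  obtain ⟨V, ρ, A, r, h, hqV, hok, hr, hrρ, hball, hB, hE⟩ := H598.exists_node k hq₀
  obtain ⟨R, C, hF⟩ := H931.exists_FBd h.toNB hqV
  have hρ := h.pos
  have hR := hF.R0
  have hC := hF.C0
  have hA : 1 ≤ A := (hB 0 q₀ (by rw [norm_zero]; exact hr) (mem_ball_self hr)).A1
  refine ⟨ball q₀ (min r R), ball_mem_nhds _ (lt_min hr hR), min (min (r / 2) R) (min (ρ / 2) 1),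
    lt_min (lt_min (by linarith) hR) (lt_min (by linarith) one_pos), fun c hc hcc => ?_⟩
  have c1 : c ≤ r / 2 := hcc.trans ((min_le_left _ _).trans (min_le_left _ _))
  have c2 : c ≤ R := hcc.trans ((min_le_left _ _).trans (min_le_right _ _))
  have c3 : c ≤ ρ / 2 := hcc.trans ((min_le_right _ _).trans (min_le_left _ _))
  have c4 : c ≤ 1 := hcc.trans ((min_le_right _ _).trans (min_le_right _ _))
  have hCF : 0 ≤ 8 * C := by positivity
  have hBE := H595.Eul.BE_pos (lc := Real.log c) hA hCF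
  have hB1 : 0 < 450 * A ^ 3 * (1 + 8 * C) := by positivity
  refine ⟨4 * A + 2, 450 * A ^ 3 * (1 + 8 * C) + H595.Eul.BE A (8 * C) (Real.log c), by linarith,
    by linarith, fun q d hAd X Y v hN => ?_⟩
  set B : ℝ := 450 * A ^ 3 * (1 + 8 * C) + H595.Eul.BE A (8 * C) (Real.log c) with hBdef
  have hd0 := norm_pos_iff.2 hAd.d0
  have hy2 : 1 ≤ yl c d := by linarith [hAd.len]
  have hy0 : 0 < yl c d := by linarith
  have hylog : yl c d = 2 * (Real.log c + -Real.log ‖d‖) := by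
    unfold yl
    rw [Real.log_div hc.ne' hd0.ne']
    ring
  have hlc : Real.log c ≤ 0 := Real.log_nonpos hc.le c4
  have hM : 2 * A < -Real.log ‖d‖ := by
    have := hAd.len
    rw [hylog] at this
    linarith
  have hdc : ‖d‖ ≤ c := by
    have h1 : Real.log ‖d‖ ≤ Real.log c := by linarith
    exact (Real.log_le_log_iff hd0 hc).1 h1
  have hq1 : q ∈ ball q₀ r := ball_subset_ball (min_le_left _ _) hAd.qU
  have hqR : ‖q - q₀‖ ≤ R := by
    have := mem_ball_iff_norm.1 (ball_subset_ball (min_le_right _ _) hAd.qU)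
    exact this.le
  have hv := hN.hv
  have hv1 : v ^ 2 = H214.ff (bd k q d, xn k q X Y) := by rw [hv.1, H214.pol_false]
  have hfam : ∀ ξ, IsCl ξ → ∃ p : En, p.1.1 = q ∧ dn p = d ∧ Xn p = X ∧ Yn p = Y ∧
      ∀ (δ : Fin 6 → ℂ) (lX lY : ℂ),
        |theFlatFam.η ξ (bd k q d) (xn k q X Y) v (nv k δ d X Y lX lY)| =
        |fderiv ℝ (H339.Un (AX ξ) k ρ) p ((δ, (lX + lY) / 2), (lX - lY) / 2)| := by
    intro ξ hξ
    obtain ⟨p, a1, a2, a3, a4, -, a6⟩ := H339.eta_node h.toNB (theFlatFam.flat ξ hξ)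
      (hball hq1) hAd.d0 hAd.mem hN.hXY (by linarith [hN.hX]) (by linarith [hN.hY]) hv1 hv.2
    exact ⟨p, a1, a2, a3, a4, a6⟩
  -- the estimates at a point over the data
  have key : ∀ ξ, IsCl ξ → ∀ p : En, p.1.1 = q → dn p = d → Xn p = X → Yn p = Y →
      (∀ (δ : Fin 6 → ℂ) (lX lY : ℂ),
        |fderiv ℝ (H339.Un (AX ξ) k ρ) p ((δ, (lX + lY) / 2), (lX - lY) / 2)| ≤
          450 * A ^ 3 * (1 + 8 * C) * ‖ξ‖ * (‖δ‖ + ‖lX‖ + ‖lY‖) ∧
        (ξ k.castSucc = ξ k.succ →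
          |fderiv ℝ (H339.Un (AX ξ) k ρ) p ((δ, (lX + lY) / 2), (lX - lY) / 2)| ≤
          450 * A ^ 3 * (1 + 8 * C) * ‖ξ‖ *
            (‖δ‖ + (‖X‖ + (yl c d)⁻¹) * ‖lX‖ + (‖Y‖ + (yl c d)⁻¹) * ‖lY‖)) ∧
        (ξ = alc k →
          |fderiv ℝ (H339.Un (AX ξ) k ρ) p ((δ, (lX + lY) / 2), (lX - lY) / 2)| ≤
          450 * A ^ 3 * (1 + 8 * C) * (yl c d)⁻¹ * (‖δ‖ + ‖lX‖ + ‖lY‖))) ∧
      ∀ lX lY : ℂ, lX = (((yl c d)⁻¹ * Real.log (‖X‖ / c) : ℝ) : ℂ) →
        lY = (((yl c d)⁻¹ * Real.log (‖Y‖ / c) : ℝ) : ℂ) →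
        |fderiv ℝ (H339.Un (AX ξ) k ρ) p ((0, (lX + lY) / 2), (lX - lY) / 2)| ≤
          H595.Eul.BE A (8 * C) (Real.log c) * ‖ξ‖ * (yl c d)⁻¹ ∧
        (ξ = alc k →
          |fderiv ℝ (H339.Un (AX ξ) k ρ) p ((0, (lX + lY) / 2), (lX - lY) / 2)| ≤
          H595.Eul.BE A (8 * C) (Real.log c) * ((yl c d)⁻¹) ^ 2) := by
    intro ξ hξ p p1 p2 p3 p4
    subst p1 p2 p3 p4
    have hpt : Pt k ρ q₀ hok A p := exists_pt hok hB hE (by linarith) hq1 hAd.mem hM
    have hphi : |phE p| ≤ 6 := H598.lg_im_le _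
    obtain ⟨F', dF, hF0, hF1⟩ := exists_fE hF hqR (hN.hX.trans c2) (hN.hY.trans c2)
    have hFC : ‖fE k ρ p‖ ≤ 8 * C := hF0.trans (by linarith)
    have hLX : (lE p).re = Real.log ‖Xn p‖ := by
      rw [H339.norm_Xn, Real.log_exp]
      unfold lE
      rw [add_re]
    have hX0 : 0 < ‖Xn p‖ := norm_pos_iff.2 (Complex.exp_ne_zero _)
    have hY0 : 0 < ‖Yn p‖ := norm_pos_iff.2 (Complex.exp_ne_zero _)
    have hal : ξ = alc k → ξ (DN k ρ).i0 = 1 ∧ ξ (DN k ρ).i1 = 1 ∧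
        ∀ j, j ≠ (DN k ρ).i0 → j ≠ (DN k ρ).i1 → ξ j = 0 := by
      intro e
      subst e
      refine ⟨by simp [alc, DN], by simp [alc, DN], fun j h1 h2 => ?_⟩
      have h1' : j ≠ k.castSucc := h1
      have h2' : j ≠ k.succ := h2
      simp [alc, h1', h2']
    constructor
    · intro δ lX lY
      obtain ⟨U', dU, hU⟩ := H996.NeckEst.est_neck (t := p) hpt.bds ξ hpt.big hphi
        (hasFDerivAt_pE p) (hasFDerivAt_mE p) (hasFDerivAt_phE hpt.sl) (hasFDerivAt_lE p) dF hFC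
        hc c4 hAd.d0 (mE_eq p) hN.hXY hN.hX hN.hY hy2 hLX
      rw [hpt.fderiv_eq hξ dU]
      have k1 : ‖((dn p • prL).prod prQ) ((δ, (lX + lY) / 2), (lX - lY) / 2)‖ ≤
          ‖δ‖ + ‖dn p‖ * ‖(lX + lY) / 2‖ := by
        show ‖((dn p * ((lX + lY) / 2) : ℂ), δ)‖ ≤ _
        rw [Prod.norm_mk, norm_mul]
        refine max_le ?_ ?_
        · linarith [norm_nonneg δ]
        · have : 0 ≤ ‖dn p‖ * ‖(lX + lY) / 2‖ := by positivity
          linarith
      have k2 : (prL + prZ) ((δ, (lX + lY) / 2), (lX - lY) / 2) = lX := by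
        show (lX + lY) / 2 + (lX - lY) / 2 = lX
        ring
      have k3 := hU ((δ, (lX + lY) / 2), (lX - lY) / 2) ‖δ‖ lX lY (norm_nonneg _) k1 k2 rfl rfl
        ((hF1 δ lX lY).trans (mul_le_mul_of_nonneg_right (by linarith) (by positivity)))
      exact ⟨k3.1, k3.2.1, fun e => k3.2.2 (hal e).1 (hal e).2.1 (hal e).2.2⟩
    · intro lX lY hlX hlY
      have hXYn : Real.log ‖Xn p‖ + Real.log ‖Yn p‖ = 2 * Real.log ‖dn p‖ := by
        rw [← Real.log_mul hX0.ne' hY0.ne', ← norm_mul, hN.hXY, norm_pow, Real.log_pow]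
        norm_num
      have hsum : (lX + lY) / 2 = ((-(1 / 2) : ℝ) : ℂ) := by
        rw [hlX, hlY, ← ofReal_add]
        have e : (yl c (dn p))⁻¹ * Real.log (‖Xn p‖ / c) + (yl c (dn p))⁻¹ * Real.log (‖Yn p‖ / c) =
            -1 := by
          rw [Real.log_div hX0.ne' hc.ne', Real.log_div hY0.ne' hc.ne']
          have : (yl c (dn p))⁻¹ * (yl c (dn p)) = 1 := inv_mul_cancel₀ hy0.ne'
          rw [← mul_add]
          have e2 : Real.log ‖Xn p‖ - Real.log c + (Real.log ‖Yn p‖ - Real.log c) =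
              -yl c (dn p) := by
            rw [hylog]
            linarith
          rw [e2]
          linarith
        rw [e]
        push_cast
        ring
      have j1 : ‖((dn p • prL).prod prQ) (((0 : C6), (lX + lY) / 2), (lX - lY) / 2)‖ ≤
          c * Real.exp (-yl c (dn p) / 2) := by
        show ‖((dn p * ((lX + lY) / 2) : ℂ), (0 : C6))‖ ≤ _
        have e : c * Real.exp (-yl c (dn p) / 2) = ‖dn p‖ := by
          rw [hylog]
          have : -(2 * (Real.log c + -Real.log ‖dn p‖)) / 2 = Real.log ‖dn p‖ - Real.log c := by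
            ring
          rw [this, Real.exp_sub, Real.exp_log hd0, Real.exp_log hc]
          field_simp
        rw [e, Prod.norm_mk, norm_mul, norm_zero, hsum, norm_real]
        refine max_le ?_ hd0.le
        norm_num
        linarith
      have j2 : (-(reCLM.comp prL)) (((0 : C6), (lX + lY) / 2), (lX - lY) / 2) = 1 / 2 := by
        show -((lX + lY) / 2).re = 1 / 2
        rw [hsum, ofReal_re]
        norm_num
      have j3 : (imCLM.comp prL) (((0 : C6), (lX + lY) / 2), (lX - lY) / 2) = 0 := by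
        show ((lX + lY) / 2).im = 0
        rw [hsum, ofReal_im]
      have j4 : (prL + prZ) (((0 : C6), (lX + lY) / 2), (lX - lY) / 2) =
          (((yl c (dn p))⁻¹ * ((lE p).re - Real.log c) : ℝ) : ℂ) := by
        show (lX + lY) / 2 + (lX - lY) / 2 = _
        rw [hLX, ← Real.log_div hX0.ne' hc.ne', ← hlX]
        ring
      have j5 : ‖F' (((0 : C6), (lX + lY) / 2), (lX - lY) / 2)‖ ≤ 8 * C * (yl c (dn p))⁻¹ := by
        refine (hF1 0 lX lY).trans ?_
        have m1 : ‖Xn p‖ * ‖lX‖ ≤ c * (yl c (dn p))⁻¹ := by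
          rw [hlX, norm_real]
          exact H595.Eul.mul_log_le hX0 hN.hX hy0
        have m2 : ‖Yn p‖ * ‖lY‖ ≤ c * (yl c (dn p))⁻¹ := by
          rw [hlY, norm_real]
          exact H595.Eul.mul_log_le hY0 hN.hY hy0
        have m3 : c * (yl c (dn p))⁻¹ ≤ (yl c (dn p))⁻¹ := mul_le_of_le_one_left (by positivity) c4
        rw [norm_zero, zero_add]
        calc 4 * C * (‖Xn p‖ * ‖lX‖ + ‖Yn p‖ * ‖lY‖) ≤ 4 * C * (2 * (yl c (dn p))⁻¹) :=
              mul_le_mul_of_nonneg_left (by linarith) (by positivity)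
          _ = _ := by ring
      have hLM : |(lE p).re + mE p| ≤ yl c (dn p) / 2 := by
        have g := (H996.NeckEst.geo hc c4 hAd.d0 rfl hN.hXY hN.hX hN.hY hy2).2.2.2.2.1
        rw [hLX, mE_eq]
        have e : yl c (dn p) / 2 = Real.log (c / ‖dn p‖) := by
          unfold yl
          ring
        rw [e]
        exact g
      have hyM : yl c (dn p) = 2 * (Real.log c + mE p) := by rw [mE_eq]; exact hylog
      constructor
      · obtain ⟨U', dU, hU⟩ := H595.Eul.est_E0 (ξ := ξ) (t := p) hpt.bds hpt.big hphi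
          (hasFDerivAt_pE p) (hasFDerivAt_mE p) (hasFDerivAt_phE hpt.sl) (hasFDerivAt_lE p) dF
          hc c4 hy2 hyM hLM j1 j2 j3 j4 hFC j5
        rw [hpt.fderiv_eq hξ dU]
        exact hU
      · intro e
        obtain ⟨g0, g1, g2⟩ := hal e
        obtain ⟨U', dU, hU⟩ := H595.Eul.est_E2 (ξ := ξ) (t := p) hpt.bds g0 g1 g2 hpt.big hphi
          (hasFDerivAt_pE p) (hasFDerivAt_mE p) (hasFDerivAt_phE hpt.sl) (hasFDerivAt_lE p) dF
          hc c4 hy2 hyM hLM j1 j2 j3 j4 hFC j5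
        rw [hpt.fderiv_eq hξ dU]
        exact hU
  have hal : IsCl (alc k) := by
    unfold IsCl
    rw [Fin.sum_univ_six]
    fin_cases k <;> norm_num [alc, Fin.ext_iff]
  have hBa : 450 * A ^ 3 * (1 + 8 * C) ≤ B := by rw [hBdef]; linarith
  have hBb : H595.Eul.BE A (8 * C) (Real.log c) ≤ B := by rw [hBdef]; linarith
  have hyi : 0 ≤ (yl c d)⁻¹ := by positivity
  refine ⟨fun δ lX lY ξ hξ => ⟨?_, fun he => ?_, ?_⟩, fun ξ hξ => ⟨?_, ?_⟩⟩
  · obtain ⟨p, a1, a2, a3, a4, a5⟩ := hfam ξ hξ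
    rw [a5]
    refine ((key ξ hξ p a1 a2 a3 a4).1 δ lX lY).1.trans ?_
    exact mul_le_mul_of_nonneg_right (mul_le_mul_of_nonneg_right hBa (norm_nonneg _))
      (by positivity)
  · obtain ⟨p, a1, a2, a3, a4, a5⟩ := hfam ξ hξ
    rw [a5]
    refine (((key ξ hξ p a1 a2 a3 a4).1 δ lX lY).2.1 he).trans ?_
    exact mul_le_mul_of_nonneg_right (mul_le_mul_of_nonneg_right hBa (norm_nonneg _))
      (by positivity)
  · obtain ⟨p, a1, a2, a3, a4, a5⟩ := hfam _ hal
    rw [a5]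
    refine (((key _ hal p a1 a2 a3 a4).1 δ lX lY).2.2 rfl).trans ?_
    exact mul_le_mul_of_nonneg_right (mul_le_mul_of_nonneg_right hBa hyi) (by positivity)
  · obtain ⟨p, a1, a2, a3, a4, a5⟩ := hfam ξ hξ
    rw [a5]
    refine ((key ξ hξ p a1 a2 a3 a4).2 _ _ rfl rfl).1.trans ?_
    exact mul_le_mul_of_nonneg_right (mul_le_mul_of_nonneg_right hBb (norm_nonneg _)) hyi
  · obtain ⟨p, a1, a2, a3, a4, a5⟩ := hfam _ hal
    rw [a5]
    refine (((key _ hal p a1 a2 a3 a4).2 _ _ rfl rfl).2 rfl).trans ?_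
    exact mul_le_mul_of_nonneg_right hBb (by positivity)

end Vale.Agent.P273.H599.NkB

end
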